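import Mathlib

/-! Row 221, step P7: the algebra along an axis. -/

set_option autoImplicit false

open scoped RealInnerProductSpace

namespace Crest.Agent.N221

namespace P7

variable {V : Type} [NormedAddCommGroup V] [InnerProductSpace ℝ V] [FiniteDimensional ℝ V]

/-- the trace as a continuous functional -/
noncomputable def tr : (V →L[ℝ] V) →L[ℝ] ℝ :=
  LinearMap.toContinuousLinearMap ((LinearMap.trace ℝ V) ∘ₗ
    (ContinuousLinearMap.coeLM ℝ : (V →L[ℝ] V) →ₗ[ℝ] V →ₗ[ℝ] V))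

lemma tr_apply (X : V →L[ℝ] V) : tr X = LinearMap.trace ℝ V (X : V →ₗ[ℝ] V) := rfl

lemma tr_comm (X Y : V →L[ℝ] V) : tr (X * Y) = tr (Y * X) :=
  LinearMap.trace_mul_comm ℝ (X : V →ₗ[ℝ] V) (Y : V →ₗ[ℝ] V)

lemma tr_skew {B : V →L[ℝ] V} (h : ∀ x y, ⟪B x, y⟫ = -⟪x, B y⟫) : tr B = 0 := by
  rw [tr_apply, LinearMap.trace_eq_sum_inner _ (stdOrthonormalBasis ℝ V)]
  refine Finset.sum_eq_zero fun i _ => ?_
  have h1 := h (stdOrthonormalBasis ℝ V i) (stdOrthonormalBasis ℝ V i)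
  rw [real_inner_comm] at h1
  have h2 : ⟪stdOrthonormalBasis ℝ V i, B (stdOrthonormalBasis ℝ V i)⟫ = 0 := by linarith
  exact h2

omit [FiniteDimensional ℝ V] in
lemma sym_deriv {F : ℝ → V →L[ℝ] V} {F' : V →L[ℝ] V} {t ε : ℝ} (h : HasDerivAt F F' t)
    (s : ∀ t x y, ⟪F t x, y⟫ = ε * ⟪x, F t y⟫) (x y : V) : ⟪F' x, y⟫ = ε * ⟪x, F' y⟫ := by
  have h1 := (h.clm_apply (hasDerivAt_const t x)).inner ℝ (hasDerivAt_const t y)
  have h2 := ((hasDerivAt_const t x).inner ℝ (h.clm_apply (hasDerivAt_const t y))).const_mul ε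
  simp only [s] at h1
  simpa using h1.unique h2

lemma step {U U' B J : ℝ → V →L[ℝ] V} {D : V →L[ℝ] V} {c : ℝ}
    (hU : ∀ t, HasDerivAt U (U' t) t) (hJ : ∀ t, HasDerivAt J (U t * J t) t)
    (iJ : ∀ t, IsUnit (J t)) (e : ∀ t, (B t - c • U t) * J t = J t * D) (t : ℝ) :
    ∃ B', HasDerivAt B B' t ∧ c • U' t = B' + (B t * U t - U t * B t) := by
  have := FiniteDimensional.complete ℝ V
  have h1 : (fun t => B t - c • U t) = fun t => J t * D * Ring.inverse (J t) := funext fun t => by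
    rw [← e, Ring.mul_inverse_cancel_right _ _ (iJ t)]
  have h2 : DifferentiableAt ℝ (fun t => B t - c • U t) t := by
    rw [h1]
    exact ((hJ t).differentiableAt.mul_const D).mul ((hJ t).differentiableAt.inverse (iJ t))
  obtain ⟨M, hM⟩ : ∃ M, HasDerivAt (fun t => B t - c • U t) M t := ⟨_, h2.hasDerivAt⟩
  have h3 := hM.fun_mul (hJ t)
  simp only [e] at h3
  have h4 := h3.unique ((hJ t).mul_const D)
  rw [mul_assoc, ← e, ← mul_assoc, ← mul_assoc, ← add_mul] at h4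
  have h5 := (iJ t).mul_right_cancel h4
  refine ⟨M + c • U' t, by simpa using hM.fun_add ((hU t).fun_const_smul c), ?_⟩
  rw [sub_mul, mul_sub, smul_mul_assoc, mul_smul_comm] at h5
  rw [eq_sub_of_add_eq h5]
  abel

end P7

open P7 in
theorem p7alg {V : Type} [NormedAddCommGroup V] [InnerProductSpace ℝ V] [FiniteDimensional ℝ V]
    {U A U' A' B J J' : ℝ → V →L[ℝ] V} {D D' : V →L[ℝ] V} {c : ℝ}
    (hU : ∀ t, HasDerivAt U (U' t) t) (hA : ∀ t, HasDerivAt A (A' t) t)
    (sU : ∀ t x y, ⟪U t x, y⟫ = ⟪x, U t y⟫) (sA : ∀ t x y, ⟪A t x, y⟫ = ⟪x, A t y⟫)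
    (sB : ∀ t x y, ⟪B t x, y⟫ = -⟪x, B t y⟫)
    (hJ : ∀ t, HasDerivAt J (U t ∘L J t) t) (hJ' : ∀ t, HasDerivAt J' (-(A t ∘L J' t)) t)
    (iJ : ∀ t, IsUnit (J t)) (iJ' : ∀ t, IsUnit (J' t))
    (e : ∀ t, (B t - c • U t) ∘L J t = J t ∘L D) (e' : ∀ t, (B t + c • A t) ∘L J' t = J' t ∘L D')
    (hD : LinearMap.trace ℝ V (D : V →ₗ[ℝ] V) ≠ 0) (k : ℕ) (t : ℝ) :
    LinearMap.trace ℝ V (((U t - A t) ^ k : V →L[ℝ] V) : V →ₗ[ℝ] V) =
      LinearMap.trace ℝ V (((U 0 - A 0) ^ k : V →L[ℝ] V) : V →ₗ[ℝ] V) := by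
  have hc : c ≠ 0 := by
    rintro rfl
    have h1 : B 0 * J 0 = J 0 * D := by
      have := e 0
      rwa [zero_smul, sub_zero] at this
    have h2 : D = Ring.inverse (J 0) * (B 0 * J 0) := by
      rw [h1, Ring.inverse_mul_cancel_left _ _ (iJ 0)]
    apply hD
    rw [← tr_apply, h2, tr_comm, Ring.mul_inverse_cancel_right _ _ (iJ 0)]
    exact tr_skew (sB 0)
  have hO : ∀ t, c • (U' t - A' t) = B t * (U t - A t) - (U t - A t) * B t := by
    intro t
    obtain ⟨B', h1, h2⟩ := step hU hJ iJ e t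
    obtain ⟨B'', h3, h4⟩ := step (U := fun t => -A t) (U' := fun t => -A' t) (B := B) (J := J')
      (D := D') (c := c) (fun t => (hA t).fun_neg) (fun t => by rw [neg_mul]; exact hJ' t) iJ'
      (fun t => by rw [smul_neg, sub_neg_eq_add]; exact e' t) t
    have h5 : B' = 0 := by
      ext x
      refine ext_inner_right ℝ fun y => ?_
      have a1 := sym_deriv (ε := -1) h1 (fun t x y => by rw [sB, neg_one_mul]) x y
      have a2 := sym_deriv (ε := 1) (hU t) (fun t x y => by rw [sU, one_mul]) x y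
      have a3 := congrArg (fun L : V →L[ℝ] V => ⟪L x, y⟫) h2
      have a4 := congrArg (fun L : V →L[ℝ] V => ⟪x, L y⟫) h2
      simp only [ContinuousLinearMap.smul_apply, ContinuousLinearMap.add_apply,
        ContinuousLinearMap.sub_apply, ContinuousLinearMap.mul_apply, inner_add_left,
        inner_add_right, inner_sub_left, inner_sub_right, real_inner_smul_left,
        real_inner_smul_right] at a3 a4
      rw [sB, sU, sU, sB, a2] at a3
      rw [ContinuousLinearMap.zero_apply, inner_zero_left]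
      linarith
    rw [← h1.unique h3, h5] at h4
    rw [h5] at h2
    simp only [smul_neg, mul_neg, neg_mul] at h4
    rw [smul_sub, sub_eq_add_neg, h2, h4, mul_sub, sub_mul]
    abel
  have hk : ∀ (k : ℕ) (t : ℝ), ∃ P, HasDerivAt (fun t => (U t - A t) ^ k) P t ∧
      c • P = B t * (U t - A t) ^ k - (U t - A t) ^ k * B t := by
    intro k t
    induction k with
    | zero => exact ⟨0, by simpa using hasDerivAt_const t (1 : V →L[ℝ] V), by simp⟩
    | succ k ih =>
      obtain ⟨P, h1, h2⟩ := ih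
      refine ⟨_, by simpa only [pow_succ] using h1.fun_mul ((hU t).fun_sub (hA t)), ?_⟩
      rw [smul_add, ← smul_mul_assoc, ← mul_smul_comm, h2, hO, pow_succ]
      noncomm_ring
  have hd : ∀ t, HasDerivAt (fun t => tr ((U t - A t) ^ k)) 0 t := by
    intro t
    obtain ⟨P, h1, h2⟩ := hk k t
    have h3 := congrArg tr h2
    rw [map_smul, map_sub, tr_comm, sub_self, smul_eq_zero] at h3
    have h4 := (tr (V := V)).hasFDerivAt.comp_hasDerivAt t h1
    rwa [h3.resolve_left hc] at h4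
  exact is_const_of_deriv_eq_zero (fun t => (hd t).differentiableAt) (fun t => (hd t).deriv) t 0

end Crest.Agent.N221
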