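import Crest.Agent.N221.Bd.Ft

/-! Row 221, block Bd: the differential of the chart, the lift of a Killing pair is the contact
vector field of `muK`. -/

set_option autoImplicit false
set_option linter.unusedSectionVars false
set_option linter.unusedVariables false

open MeasureTheory Set Filter Topology
open scoped ContDiff RealInnerProductSpace ENNReal
open Crest.GeometryTopology.Submanifold
open Crest.Agent.R241.DDefs Crest.Agent.R241.D2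
open Crest.Agent.R208.J Crest.Agent.R208.L

noncomputable section

namespace Crest.Agent.N221.Cov

variable {n N : ℕ} {a : ℝ} {S : Set (Euc N)} {G : Geo n N (-(a ^ 2)) S} (C : Cov G)
variable {x y ξ η ζ ζ' : Euc n} {v : Euc N} {g : Euc n → Euc n} {s σ : ℝ}
variable {Z : Type} [NormedAddCommGroup Z] [NormedSpace ℝ Z]

variable {Y Y' : Euc n → Euc n} {f f' : Euc n → ℝ}
variable (h : SH G)
include h

lemma br_qq (hv : C.Un x v) : C.qq (C.ep x v) x = (C.pr x, v) := by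
  rw [qq, C.W_ep_self h.hyp.a_pos hv]

lemma br_anti (hv : C.Un x v) : C.W (C.ep x (-v)) x = -C.W (C.ep x v) x := by
  rw [C.W_ep_self h.hyp.a_pos hv, C.W_ep_self h.hyp.a_pos hv.neg]

lemma br_K1 (hv : C.Un x v) (ζ : Euc n) : C.KW (C.ep x v) x ζ ∈ Vp G (C.pr x, v) := by
  rw [← C.br_qq h hv]
  exact C.KW_mem h (C.ep_ne_zero h.hyp.a_pos hv) x ζ

lemma br_K2 (hv : C.Un x v) (ζ : Euc n) : C.KW (C.ep x (-v)) x ζ ∈ Vp G (C.pr x, v) := by
  rw [← Vp_rev]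
  exact C.br_K1 h hv.neg ζ

lemma br_U_vel {q : TT N} (hq : q ∈ US G) : U G q q.2 = 0 := by
  rw [← (H.isU h.hyp).comp_Pv q hq, H.Pv_vel hq, map_zero]

lemma br_alg {q : TT N} (hq : q ∈ US G) {j j' : Euc N} (hj : j ∈ Vp G q) (hj' : j' ∈ Vp G q)
    (k k' : Euc N) : ⟪k' + AA G q k, H.Ei G q (U G q j - j')⟫ -
      ⟪j' + AA G q j, H.Ei G q (U G q k - k')⟫ = ⟪k', j⟫ - ⟪k, j'⟫ := by
  have hU : IsU G (U G) := H.isU h.hyp
  have e1 : H.Ei G q (U G q j - j') + H.Ei G q (j' + AA G q j) = j := by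
    rw [← map_add, ← add_assoc, sub_add_cancel, H.Ei_D hU h.hyp.a_pos hq, Pv_of_mem hq.1 hj]
  have e2 : U G q (H.Ei G q (j' + AA G q j)) - AA G q (H.Ei G q (U G q j - j')) = j' := by
    rw [map_add, map_add, map_sub, map_sub, A_Ei_U h hq]
    conv_rhs => rw [← U_add_A_Ei h hq hj']
    abel
  rw [← inner_Ei h hq (j' + AA G q j), inner_add_left, inner_sub_right,
    hU.symm _ (rev_US hq) k, ← hU.symm q hq, real_inner_comm k, real_inner_comm k']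
  have e3 := congrArg (fun w => ⟪k', w⟫) e1
  have e4 := congrArg (fun w => ⟪k, w⟫) e2
  simp only [inner_add_right, inner_sub_right] at e3 e4
  linarith

lemma FT_Psi (hv : C.Un x v) : C.FT (C.PsiB x v) = x := C.ft_ep h.hyp.a_pos hv

lemma Psi_FT (hp : (ξ, η) ∈ GG n) (s : ℝ) :
    C.PsiB (C.ft ξ η s) (C.W ξ (C.ft ξ η s)) = ((ξ, η), s) := by
  rw [PsiB, (C.ep_ft h.hyp.a_pos hp s).1, (C.ep_ft h.hyp.a_pos hp s).2,
    (C.ft_spec h.hyp.a_pos (GG_sub hp) s).2, neg_neg]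

lemma Psi_gd (hv : C.Un x v) (t : ℝ) :
    C.PsiB (C.gd x v t) (C.vel x v t) = ((C.PsiB x v).1, (C.PsiB x v).2 + t) := by
  have ha := h.hyp.a_pos
  have e := C.b_gd ha (C.ep_ne_zero ha hv) x t
  rw [C.W_ep_self ha hv] at e
  simp only [PsiB]
  rw [C.ep_gd ha hv, C.ep_gd_neg ha hv, e, neg_sub, sub_eq_neg_add]

lemma Psi_deck (hg : C.Deck g) (hv : C.Un x v) : C.PsiB (g x) v =
    ((C.act g (C.PsiB x v).1.1, C.act g (C.PsiB x v).1.2),
      (C.PsiB x v).2 + C.be g (C.PsiB x v).1.1) := by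
  have ha := h.hyp.a_pos
  simp only [PsiB]
  rw [← C.act_ep ha hg hv, ← C.act_ep ha hg hv.neg, C.b_act ha hg (C.ep_ne_zero ha hv), neg_sub,
    sub_eq_neg_add]

lemma jK_mem (hv : C.Un x v) : C.jK Y Y' x v ∈ Vp G (C.pr x, v) :=
  Ei_mem h hv (add_mem (C.br_K1 h hv _) (C.br_K2 h hv _))

lemma jK'_mem (hv : C.Un x v) : C.jK' Y Y' x v ∈ Vp G (C.pr x, v) :=
  sub_mem (C.br_K1 h hv _) (UDn.rev_mem' (H.isU h.hyp) hv _)

lemma jK'_eq (hv : C.Un x v) : C.jK' Y Y' x v =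
    U G (C.pr x, v) (C.jK Y Y' x v) - C.KW (C.ep x (-v)) x (Y' (C.ep x (-v))) := by
  have e := U_add_A_Ei h hv
    (add_mem (C.br_K1 h hv (Y (C.ep x v))) (C.br_K2 h hv (Y' (C.ep x (-v)))))
  rw [jK', sub_eq_sub_iff_add_eq_add, ← e]
  rfl

lemma br_neg {X : Z → Euc n} {V : Z → Euc N} {z : Z} (hu : ∀ᶠ z' in 𝓝 z, C.Un (X z') (V z')) :
    ∀ᶠ z' in 𝓝 z, C.Un (X z') (-V z') := hu.mono fun _ h' => h'.neg

/-- differential of the backward end point -/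
lemma br_ep_neg {X : Z → Euc n} {V : Z → Euc N} {z : Z} (hX : DifferentiableAt ℝ X z)
    (hV : DifferentiableAt ℝ V z) (hu : ∀ᶠ z' in 𝓝 z, C.Un (X z') (V z')) (δ : Z) :
    ⟪C.ep (X z) (-V z), fderiv ℝ (fun z => C.ep (X z) (-V z)) z δ⟫ = 0 ∧
    C.KW (C.ep (X z) (-V z)) (X z) (fderiv ℝ (fun z => C.ep (X z) (-V z)) z δ) =
      U G (C.pr (X z), V z) (C.Dp (X z) (fderiv ℝ X z δ)) - G.P (C.pr (X z)) (fderiv ℝ V z δ) := by
  obtain ⟨h1, h2⟩ := C.fderiv_ep h (V := fun z => -V z) hX hV.fun_neg (C.br_neg h hu) δ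
  refine ⟨h1, h2.trans ?_⟩
  rw [fderiv_fun_neg, neg_apply, map_neg, neg_add_eq_sub]
  simp only [AA, rev, neg_neg]

/-- differential of the chart -/
lemma fderiv_Psi {X : Z → Euc n} {V : Z → Euc N} {z : Z} (hX : DifferentiableAt ℝ X z)
    (hV : DifferentiableAt ℝ V z) (hu : ∀ᶠ z' in 𝓝 z, C.Un (X z') (V z')) (δ : Z)
    {k k' : Euc N} (hk : k = C.Dp (X z) (fderiv ℝ X z δ))
    (hk' : k' = G.P (C.pr (X z)) (fderiv ℝ V z δ))
    (hξ : ξ = C.ep (X z) (V z)) (hη : η = C.ep (X z) (-V z))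
    (e : fderiv ℝ (fun z => C.PsiB (X z) (V z)) z δ = ((ζ, ζ'), σ)) :
    ⟪ξ, ζ⟫ = 0 ∧ ⟪η, ζ'⟫ = 0 ∧ C.KW ξ (X z) ζ = k' + AA G (C.pr (X z), V z) k ∧
      C.KW η (X z) ζ' = U G (C.pr (X z), V z) k - k' ∧ σ = ⟪V z, k⟫ + C.c1 ξ η ζ := by
  subst hk hk' hξ hη
  have ha := h.hyp.a_pos
  have hv := hu.self_of_nhds
  have d1 := (C.differentiableAt_ep h hX hV hu).hasFDerivAt
  have d2 := (C.differentiableAt_ep h (V := fun z => -V z) hX hV.fun_neg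
    (C.br_neg h hu)).hasFDerivAt
  have d3 := ((C.hasFDerivAt_b2 h (C.ep_ne_zero ha hv) (X z)).comp z
    (d1.prodMk hX.hasFDerivAt)).fun_neg
  have d : HasFDerivAt (fun z => C.PsiB (X z) (V z)) _ z := (d1.prodMk d2).prodMk d3
  rw [d.fderiv] at e
  obtain ⟨⟨rfl, rfl⟩, rfl⟩ : (fderiv ℝ (fun z => C.ep (X z) (V z)) z δ = ζ ∧
      fderiv ℝ (fun z => C.ep (X z) (-V z)) z δ = ζ') ∧
      -(C.b1 (C.ep (X z) (V z)) (X z) (fderiv ℝ (fun z => C.ep (X z) (V z)) z δ) -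
        ⟪C.W (C.ep (X z) (V z)) (X z), C.Dp (X z) (fderiv ℝ X z δ)⟫) = σ :=
    ⟨⟨congrArg (·.1.1) e, congrArg (·.1.2) e⟩, congrArg (·.2) e⟩
  refine ⟨(C.fderiv_ep h hX hV hu δ).1, (C.br_ep_neg h hX hV hu δ).1,
    (C.fderiv_ep h hX hV hu δ).2, (C.br_ep_neg h hX hV hu δ).2, ?_⟩
  rw [C.c1_eq h (GG_sub (C.ep_GG ha hv)) (C.br_anti h hv), C.W_ep_self ha hv,
    neg_apply]
  ring

/-- the direction `(jK + μ v, jK')` is the lift `(Y, Y', f)` -/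
lemma fderiv_Psi_lift (hK : C.Kill Y f Y' f') {X : Z → Euc n} {V : Z → Euc N} {z : Z}
    (hX : DifferentiableAt ℝ X z) (hV : DifferentiableAt ℝ V z)
    (hu : ∀ᶠ z' in 𝓝 z, C.Un (X z') (V z')) (δ : Z)
    (hk : C.Dp (X z) (fderiv ℝ X z δ) = C.jK Y Y' (X z) (V z) + C.muK Y f (X z) (V z) • V z)
    (hk' : G.P (C.pr (X z)) (fderiv ℝ V z δ) = C.jK' Y Y' (X z) (V z)) :
    fderiv ℝ (fun z => C.PsiB (X z) (V z)) z δ =
      ((Y (C.ep (X z) (V z)), Y' (C.ep (X z) (-V z))), f (C.ep (X z) (V z))) := by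
  have ha := h.hyp.a_pos
  have hv := hu.self_of_nhds
  have n1 := C.norm_ep ha hv
  have n2 := C.norm_ep ha hv.neg
  rcases e : fderiv ℝ (fun z => C.PsiB (X z) (V z)) z δ with ⟨⟨ζ, ζ'⟩, σ⟩
  obtain ⟨h1, h2, h3, h4, h5⟩ := C.fderiv_Psi h hX hV hu δ hk.symm hk'.symm rfl rfl e
  have a1 : AA G (C.pr (X z), V z) (V z) = 0 := H.Um_vel (H.isU h.hyp) hv
  have a2 : U G (C.pr (X z), V z) (V z) = 0 := br_U_vel h hv
  have a3 : ⟪V z, C.jK Y Y' (X z) (V z)⟫ = 0 := by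
    rw [real_inner_comm]; exact (mem_Vp.1 (C.jK_mem h hv)).2
  rw [map_add, map_smul, a1, smul_zero, add_zero, jK', sub_add_cancel] at h3
  rw [map_add, map_smul, a2, smul_zero, add_zero, C.jK'_eq h hv, sub_sub_cancel] at h4
  have e1 : ζ = Y (C.ep (X z) (V z)) := sub_eq_zero.1 (C.KW_eq_zero h (y := X z) n1
    (by rw [inner_sub_right, h1, hK.tan _ n1, sub_zero]) (by rw [map_sub, h3, sub_self]))
  have e2 : ζ' = Y' (C.ep (X z) (-V z)) := sub_eq_zero.1 (C.KW_eq_zero h (y := X z) n2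
    (by rw [inner_sub_right, h2, hK.tan' _ n2, sub_zero]) (by rw [map_sub, h4, sub_self]))
  rw [inner_add_right, a3, inner_smul_right, real_inner_self_eq_norm_sq, hv.norm, e1, muK] at h5
  rw [e1, e2, h5]
  simp

lemma contDiffAt_muK (hK : C.Kill Y f Y' f') {X : Z → Euc n} {V : Z → Euc N} {z : Z}
    (hX : ContDiffAt ℝ ∞ X z) (hV : ContDiffAt ℝ ∞ V z)
    (hu : ∀ᶠ z' in 𝓝 z, C.Un (X z') (V z')) :
    ContDiffAt ℝ ∞ (fun z => C.muK Y f (X z) (V z)) z := by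
  have ha := h.hyp.a_pos
  have hv := hu.self_of_nhds
  have n1 := C.norm_ep ha hv
  have c1 := C.contDiffAt_ep h hX hV hu
  have c2 := C.contDiffAt_ep h (V := fun z => -V z) hX hV.neg (C.br_neg h hu)
  have c3 := (C.contDiffAt_c1 h (GG_sub (C.ep_GG ha hv))).comp z (c1.prodMk c2)
  have c4 := (hK.sY _ n1).comp z c1
  exact ((hK.sf _ n1).comp z c1).sub (c3.clm_apply c4)

lemma muK_gd (hv : C.Un x v) (t : ℝ) :
    C.muK Y f (C.gd x v t) (C.vel x v t) = C.muK Y f x v := by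
  rw [muK, muK, C.ep_gd h.hyp.a_pos hv, C.ep_gd_neg h.hyp.a_pos hv]

/-- differential of `f ξ - c1 ξ η (Y ξ)` along curves of `GG` -/
lemma br_mu (hK : C.Kill Y f Y' f') {p r : Z → Euc n} {z : Z} (hp : DifferentiableAt ℝ p z)
    (hr : DifferentiableAt ℝ r z) (h1 : ∀ᶠ z' in 𝓝 z, ‖p z'‖ = 1) (hG : (p z, r z) ∈ GG n) :
    DifferentiableAt ℝ (fun z => f (p z) - C.c1 (p z) (r z) (Y (p z))) z ∧ ∀ δ,
    fderiv ℝ (fun z => f (p z) - C.c1 (p z) (r z) (Y (p z))) z δ =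
      C.MMb (p z) (r z) (fderiv ℝ p z δ) (Y' (r z)) -
        C.MMb (p z) (r z) (Y (p z)) (fderiv ℝ r z δ) := by
  have hO := GG_sub hG
  obtain ⟨D, hψ⟩ : DifferentiableAt ℝ
      (fun u : Euc n × Euc n => f u.1 - C.c1 u.1 u.2 (Y u.1)) (p z, r z) :=
    (((hK.sf _ hG.1).comp (p z, r z) contDiffAt_fst).sub ((C.contDiffAt_c1 h hO).clm_apply
      ((hK.sY _ hG.1).comp (p z, r z) contDiffAt_fst))).differentiableAt (by simp)
  have d := hψ.comp z (hp.hasFDerivAt.prodMk hr.hasFDerivAt)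
  refine ⟨d.differentiableAt, fun δ => ?_⟩
  have e2 := (hψ.comp (r z) (hasFDerivAt_prodMk_right (p z) (r z))).unique
    ((C.hasFDerivAt_c1 h hO (Y (p z))).const_sub (f (p z)))
  have e1 := (hψ.comp z (hp.hasFDerivAt.prodMk (hasFDerivAt_const (r z) z))).unique
    ((((C.hasFDerivAt_c2 h hO (Y' (r z))).comp z hp.hasFDerivAt).sub_const
      (f' (r z))).congr_of_eventuallyEq (by
        filter_upwards [h1, hp.continuousAt.eventually_ne hG.2.2] with z' a1 a2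
        have := hK.eq (p z') (r z) ⟨a1, hG.2.1, a2⟩
        simp only [Function.comp_apply]
        linarith))
  have e3 : D (fderiv ℝ p z δ, 0) = C.MMb (p z) (r z) (fderiv ℝ p z δ) (Y' (r z)) :=
    congrArg (fun L : Z →L[ℝ] ℝ => L δ) e1
  have e4 : D (0, fderiv ℝ r z δ) = -C.MMb (p z) (r z) (Y (p z)) (fderiv ℝ r z δ) :=
    congrArg (fun L : Euc n →L[ℝ] ℝ => L (fderiv ℝ r z δ)) e2
  rw [sub_eq_add_neg, ← e3, ← e4, ← map_add, Prod.mk_add_mk, add_zero, zero_add]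
  exact congrArg (fun L : Z →L[ℝ] ℝ => L δ) d.fderiv

/-- `∂^v μ = jK`, `∇^h μ = -jK'` -/
lemma fderiv_muK (hK : C.Kill Y f Y' f') {X : Z → Euc n} {V : Z → Euc N} {z : Z}
    (hX : DifferentiableAt ℝ X z) (hV : DifferentiableAt ℝ V z)
    (hu : ∀ᶠ z' in 𝓝 z, C.Un (X z') (V z')) :
    DifferentiableAt ℝ (fun z => C.muK Y f (X z) (V z)) z ∧ ∀ δ,
    fderiv ℝ (fun z => C.muK Y f (X z) (V z)) z δ =
      ⟪fderiv ℝ V z δ, C.jK Y Y' (X z) (V z)⟫ -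
        ⟪C.Dp (X z) (fderiv ℝ X z δ), C.jK' Y Y' (X z) (V z)⟫ := by
  have ha := h.hyp.a_pos
  have hv := hu.self_of_nhds
  have hG := C.ep_GG ha hv
  obtain ⟨d, e⟩ := C.br_mu h hK (C.differentiableAt_ep h hX hV hu)
    (C.differentiableAt_ep h (V := fun z => -V z) hX hV.fun_neg (C.br_neg h hu))
    (hu.mono fun _ h' => C.norm_ep ha h') hG
  refine ⟨d, fun δ => (e δ).trans ?_⟩
  have k1 : C.KW (C.ep (X z) (V z)) (X z) (Y (C.ep (X z) (V z))) =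
      C.jK' Y Y' (X z) (V z) + AA G (C.pr (X z), V z) (C.jK Y Y' (X z) (V z)) := by
    rw [jK', sub_add_cancel]
  have k2 : C.KW (C.ep (X z) (-V z)) (X z) (Y' (C.ep (X z) (-V z))) =
      U G (C.pr (X z), V z) (C.jK Y Y' (X z) (V z)) - C.jK' Y Y' (X z) (V z) := by
    rw [C.jK'_eq h hv, sub_sub_cancel]
  rw [C.MMb_eq h (GG_sub hG) (C.br_anti h hv), C.MMb_eq h (GG_sub hG) (C.br_anti h hv),
    C.br_qq h hv, (C.fderiv_ep h hX hV hu δ).2, (C.br_ep_neg h hX hV hu δ).2, k1, k2,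
    br_alg h hv (C.jK_mem h hv) (C.jK'_mem h hv), inner_P_left G hv.1.1,
    (P_eq_self G hv.1.1).1 (mem_Vp.1 (C.jK_mem h hv)).1]

end Crest.Agent.N221.Cov
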