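import Crest.Agent.N221.A
import Crest.Agent.N221.D.Chart
import Crest.Agent.N221.D.Hor
import Crest.Agent.N221.H.Lin
import Crest.Agent.Lib.ODEFlow

/-!
Row 221, block Bd (helper71): the SMOOTH boundary (input: `U` is smooth, `Sm G`).
Model of block D: boundary points are unit vectors of `Euc n`, everything is `0`-homogeneous.

* `qq ξ y` the unit vector at `y` pointing to `ξ`, `Dp y = D pr (y)`,
* `KW ξ y = ∂_ξ W` (kills `ξ`, maps `ξ^⊥` onto `Vp`), `KT` its extension by `ξ ↦ W ξ y`,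
* `b1 = ∂_ξ b`, `c1 = ∂_ξ cc`, `c2 = ∂_η cc`, `MM = ∂_ξ ∂_η cc`, `Mdet` its determinant,
* `Da g ξ = D (act g) ξ`, `DT g ξ` its extension by `ξ ↦ act g ξ`,
* `Psi x v = (ξ, η, s)` the chart of the unit tangent bundle of the cover,
* `Kill` Killing pairs.
-/

set_option autoImplicit false
set_option linter.unusedSectionVars false
set_option linter.unusedVariables false

open MeasureTheory Set Filter Topology
open scoped ContDiff RealInnerProductSpace ENNReal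
open Crest.GeometryTopology.Submanifold
open Crest.Agent.R241.DDefs Crest.Agent.R241.D2
open Crest.Agent.R208.J Crest.Agent.R208.L

noncomputable section

namespace Crest.Agent.N221

variable {n N : ℕ} {a : ℝ} {S : Set (Euc N)}

/-- standing hypotheses of the smooth layer -/
structure SH (G : Geo n N (-(a ^ 2)) S) : Prop where
  hyp : Hyp n N a S
  sm : Sm G
  hH : H.HorS
  hD : H.DHorS

/-- `A = U ∘ rev` -/
abbrev AA (G : Geo n N (-(a ^ 2)) S) (q : TT N) : Op N := U G (rev q)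

/-- traces of the powers of the odd field `U - U ∘ rev` -/
def trO (G : Geo n N (-(a ^ 2)) S) (k : ℕ) (q : TT N) : ℝ :=
  LinearMap.trace ℝ (Euc N) (((U G q - U G (rev q)) ^ k : Op N) : Euc N →ₗ[ℝ] Euc N)

/-- projection on `ξ^⊥` (unit `ξ`) -/
def piO (ξ : Euc n) : Euc n →L[ℝ] Euc n :=
  ContinuousLinearMap.id ℝ (Euc n) - (innerSL ℝ ξ).smulRight ξ

namespace Cov

variable {G : Geo n N (-(a ^ 2)) S} (C : Cov G)

def qq (ξ y : Euc n) : TT N := (C.pr y, C.W ξ y)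

def Dp (y : Euc n) : Euc n →L[ℝ] Euc N := fderiv ℝ C.pr y

def KW (ξ y : Euc n) : Euc n →L[ℝ] Euc N := fderiv ℝ (fun ξ => C.W ξ y) ξ

def KT (ξ y : Euc n) : Euc n →L[ℝ] Euc N := C.KW ξ y + (innerSL ℝ ξ).smulRight (C.W ξ y)

def b1 (ξ y : Euc n) : Euc n →L[ℝ] ℝ := fderiv ℝ (fun ξ => C.b ξ y) ξ

def c1 (ξ η : Euc n) : Euc n →L[ℝ] ℝ := fderiv ℝ (fun ξ => C.cc ξ η) ξ

def c2 (ξ η : Euc n) : Euc n →L[ℝ] ℝ := fderiv ℝ (fun η => C.cc ξ η) η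

/-- `MM ξ η ζ ζ'`, `ζ` at `ξ`, `ζ'` at `η` -/
def MMb (ξ η : Euc n) : Euc n →L[ℝ] Euc n →L[ℝ] ℝ := fderiv ℝ (fun ξ => C.c2 ξ η) ξ

def Mdet (ξ η : Euc n) : ℝ :=
  (Matrix.of fun i j : Fin n =>
    C.MMb ξ η (EuclideanSpace.single i 1) (EuclideanSpace.single j 1) - ξ i * η j).det

def Da (g : Euc n → Euc n) (ξ : Euc n) : Euc n →L[ℝ] Euc n := fderiv ℝ (C.act g) ξ

def DT (g : Euc n → Euc n) (ξ : Euc n) : Euc n →L[ℝ] Euc n :=
  C.Da g ξ + (innerSL ℝ ξ).smulRight (C.act g ξ)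

/-- `ft` as a function of one variable -/
def FT (p : (Euc n × Euc n) × ℝ) : Euc n := C.ft p.1.1 p.1.2 p.2

/-- the chart -/
def PsiB (x : Euc n) (v : Euc N) : (Euc n × Euc n) × ℝ :=
  ((C.ep x v, C.ep x (-v)), -C.b (C.ep x v) x)

/-- Killing pair -/
structure Kill (Y : Euc n → Euc n) (f : Euc n → ℝ) (Y' : Euc n → Euc n) (f' : Euc n → ℝ) :
    Prop where
  sY : ∀ ξ, ‖ξ‖ = 1 → ContDiffAt ℝ ∞ Y ξ
  sf : ∀ ξ, ‖ξ‖ = 1 → ContDiffAt ℝ ∞ f ξ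
  sY' : ∀ ξ, ‖ξ‖ = 1 → ContDiffAt ℝ ∞ Y' ξ
  sf' : ∀ ξ, ‖ξ‖ = 1 → ContDiffAt ℝ ∞ f' ξ
  tan : ∀ ξ, ‖ξ‖ = 1 → ⟪ξ, Y ξ⟫ = 0
  tan' : ∀ ξ, ‖ξ‖ = 1 → ⟪ξ, Y' ξ⟫ = 0
  eq : ∀ ξ η, (ξ, η) ∈ GG n → C.c1 ξ η (Y ξ) + C.c2 ξ η (Y' η) = f ξ + f' η

/-- the Hamiltonian `μ = α (Ỹ)` of a Killing pair -/
def muK (Y : Euc n → Euc n) (f : Euc n → ℝ) (x : Euc n) (v : Euc N) : ℝ :=
  f (C.ep x v) - C.c1 (C.ep x v) (C.ep x (-v)) (Y (C.ep x v))

/-- base component (orthogonal to `v`) of the lift of `(Y, Y')` -/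
def jK (Y Y' : Euc n → Euc n) (x : Euc n) (v : Euc N) : Euc N :=
  H.Ei G (C.pr x, v) (C.KW (C.ep x v) x (Y (C.ep x v)) + C.KW (C.ep x (-v)) x (Y' (C.ep x (-v))))

/-- vertical component of the lift -/
def jK' (Y Y' : Euc n → Euc n) (x : Euc n) (v : Euc N) : Euc N :=
  C.KW (C.ep x v) x (Y (C.ep x v)) - AA G (C.pr x, v) (C.jK Y Y' x v)

end Cov

end Crest.Agent.N221
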