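import Crest.Agent.N221.Bd.Defs
import Crest.Agent.N221.D.Dyn
import Crest.Agent.N221.P.Tau
import Crest.Agent.N221.Z.BU
import Crest.Agent.N221.Z.Sz

/-! Row 221, step P7, end: from periodic orbits to parallel curvature. -/

set_option autoImplicit false
set_option linter.unusedSectionVars false
set_option linter.unusedVariables false

open MeasureTheory Set Filter Topology
open scoped ContDiff RealInnerProductSpace ENNReal
open Crest.GeometryTopology.Submanifold
open Crest.Agent.R241.DDefs Crest.Agent.R241.D2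
open Crest.Agent.R208.J Crest.Agent.R208.L

noncomputable section

namespace Crest.Agent.N221

variable {n N : ℕ} {a : ℝ} {S : Set (Euc N)} {G : Geo n N (-(a ^ 2)) S}

lemma const_of_periodic (H : Hyp n N a S) (hT : TrS) {F : TT N → ℝ} (hF : ContinuousOn F (US G))
    (e : ∀ q ∈ US G, (∃ l > 0, ph G l q = q) → ∀ t, F (fl G (q, t)) = F q) :
    ∃ c, ∀ q ∈ US G, F q = c := by
  have hinv : ∀ q ∈ US G, ∀ t, F (fl G (q, t)) = F q := by
    intro q hq t
    have h1 : ContinuousOn (fun q : TT N => fl G (q, t)) (US G) :=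
      (continuousOn_fl G).comp (f := fun q : TT N => (q, t)) (by fun_prop)
        fun q hq => ⟨hq.1, mem_univ _⟩
    have h2 : ContinuousOn (fun q => F (fl G (q, t)) - F q) (US G) :=
      (hF.comp h1 fun q hq => fl_US hq t).sub hF
    have h3 := h2.preimage_isClosed_of_isClosed (isClosed_US G) (isClosed_singleton (x := (0 : ℝ)))
    have h4 := closure_minimal (s := {q | q ∈ US G ∧ ∃ l > 0, ph G l q = q})
      (fun q hq => And.intro hq.1 (sub_eq_zero.2 (e q hq.1 hq.2 t))) h3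
      (Cov.dense_periodic H hT hq)
    exact sub_eq_zero.1 h4.2
  rcases (US G).eq_empty_or_nonempty with he | ⟨q0, hq0⟩
  · exact ⟨0, fun q hq => by rw [he] at hq; exact hq.elim⟩
  obtain ⟨z, hz, hbi⟩ := closure_nonempty_iff.1 ⟨q0, hT n N a S G H hq0⟩
  refine ⟨F z, fun q hq => ?_⟩
  have hcl : q ∈ closure (US G ∩ F ⁻¹' {F z}) := by
    rw [Metric.mem_closure_iff]
    intro ε hε
    obtain ⟨⟨t, -, ht⟩, -⟩ := hbi q hq ε hε 0
    exact ⟨ph G t z, ⟨fl_US hz t, hinv z hz t⟩, by rwa [dist_comm]⟩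
  exact ((hF.preimage_isClosed_of_isClosed (isClosed_US G)
    isClosed_singleton).closure_subset hcl).2

theorem par_of_trO (H : Hyp n N a S) (hT : TrS)
    (e : ∀ q ∈ US G, (∃ l > 0, ph G l q = q) → ∀ k t, trO G k (fl G (q, t)) = trO G k q) :
    Par G := by
  have hU := uExS n N a S G H
  have hr : Continuous (rev : TT N → TT N) := continuous_fst.prodMk continuous_snd.neg
  have hO : ContinuousOn (fun q => U G q - U G (rev q)) (US G) :=
    hU.cont.sub (hU.cont.comp hr.continuousOn fun q hq => rev_US hq)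
  refine (toParS uExS n N a S G H).1 fun q hq => ?_
  have hm : ∀ v ∈ G.T q.1, ‖v‖ = 1 → (q.1, v) ∈ US G := fun v hv h1 => ⟨⟨hq.1.1, hv⟩, h1⟩
  have h := Z.szS (Z.projS (Z.evenS Z.buS)) (Euc N) (G.T q.1)
    (fun v => U G (q.1, v) - U G (rev (q.1, v)))
    (hO.comp (f := fun v : Euc N => (q.1, v)) (by fun_prop) fun v hv => hm v hv.1 hv.2)
    (by rw [G.finrank_T _ hq.1.1]; have := H.hn; omega) (fun v hv h1 => ?_) (fun k => ?_)
    q.2 hq.1.2 hq.2
  · exact (sub_eq_zero.1 h).symm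
  · have hz := hm v hv h1
    refine ⟨fun x y => ?_, fun x => ?_, ?_, ?_⟩
    · rw [ContinuousLinearMap.sub_apply, ContinuousLinearMap.sub_apply, inner_sub_left,
        inner_sub_right, hU.symm _ hz, hU.symm _ (rev_US hz)]
    · exact (G.T q.1).sub_mem (mem_Vp.1 (hU.mem hz x)).1 (mem_Vp.1 (UDn.rev_mem' hU hz x)).1
    · have h2 : U G (q.1, v) v = 0 := by
        rw [← hU.comp_Pv _ hz, show Pv G (q.1, v) v = 0 from N221.H.Pv_vel hz, map_zero]
      rw [ContinuousLinearMap.sub_apply, h2, show U G (rev (q.1, v)) v = 0 from N221.H.Um_vel hU hz,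
        sub_zero]
    · simp [rev]
  · obtain ⟨c, hc⟩ := const_of_periodic H hT (F := trO G k)
      (UDn.continuous_tr.comp_continuousOn (hO.pow k)) fun q hq hp t => e q hq hp k t
    exact ⟨c, fun v hv h1 => hc _ (hm v hv h1)⟩

theorem Cov.par_of_per (C : Cov G) (H : Hyp n N a S) (hT : TrS)
    (e : ∀ g ξ η, C.Per g ξ η → ∀ k s t,
      trO G k (fl G (C.qq ξ (C.ft ξ η s), t)) = trO G k (C.qq ξ (C.ft ξ η s))) : Par G := by
  refine par_of_trO H hT fun q hq ⟨l, hl, hp⟩ k t => ?_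
  obtain ⟨y, hy, hw⟩ := C.exists_un hq
  have h1 : (C.pr y, q.2) = q := by rw [hy]
  obtain ⟨g, hg⟩ := C.exists_axis_of_periodic hw hl (by rw [h1]; exact hp)
  have h2 := e g _ _ ⟨y, q.2, l, hg, rfl, rfl⟩ k (-C.b (C.ep y q.2) y) t
  rwa [C.ft_ep H.a_pos hw, Cov.qq, C.W_ep_self H.a_pos hw, h1] at h2

end Crest.Agent.N221
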