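import Crest.Agent.N221.Bd.K

/-! Row 221, block Bd: smoothness and derivatives of `ft`, `cc`; the form `MM`. -/

set_option autoImplicit false
set_option linter.unusedSectionVars false
set_option linter.unusedVariables false

open MeasureTheory Set Filter Topology
open scoped ContDiff RealInnerProductSpace ENNReal
open Crest.GeometryTopology.Submanifold
open Crest.Agent.R241.DDefs Crest.Agent.R241.D2
open Crest.Agent.R208.J Crest.Agent.R208.L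

noncomputable section

namespace Crest.Agent.N221.Cov

variable {n N : ℕ} {a : ℝ} {S : Set (Euc N)} {G : Geo n N (-(a ^ 2)) S} (C : Cov G)
variable {x y ξ η ζ ζ' : Euc n} {v : Euc N} {g : Euc n → Euc n} {s σ : ℝ}
variable {Z : Type} [NormedAddCommGroup Z] [NormedSpace ℝ Z]

namespace Ft

variable {A B F : Type} [NormedAddCommGroup A] [NormedSpace ℝ A] [NormedAddCommGroup B]
  [NormedSpace ℝ B] [NormedAddCommGroup F] [NormedSpace ℝ F] {f : A → B → F} {u : A} {w : B}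

lemma d1 (hf : ContDiffAt ℝ ∞ (fun p : A × B => f p.1 p.2) (u, w)) :
    HasFDerivAt (fun u => f u w) (fderiv ℝ (fun u => f u w) u) u :=
  ((hf.comp u (f := fun u => (u, w)) (by fun_prop)).differentiableAt (by simp)).hasFDerivAt

lemma split (hf : ContDiffAt ℝ ∞ (fun p : A × B => f p.1 p.2) (u, w)) :
    HasFDerivAt (fun p : A × B => f p.1 p.2)
      (fderiv ℝ (fun u => f u w) u ∘L ContinuousLinearMap.fst ℝ _ _ +
        fderiv ℝ (fun w => f u w) w ∘L ContinuousLinearMap.snd ℝ _ _) (u, w) := by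
  have h0 := (hf.differentiableAt (by simp)).hasFDerivAt
  have h1 : HasFDerivAt (fun u => f u w) _ u :=
    h0.comp u (f := fun u => (u, w)) (hasFDerivAt_prodMk_left u w)
  have h2 : HasFDerivAt (fun w => f u w) _ w :=
    h0.comp w (f := fun w => (u, w)) (hasFDerivAt_prodMk_right u w)
  rw [h1.fderiv, h2.fderiv]
  refine h0.congr_fderiv (ContinuousLinearMap.ext fun p => ?_)
  simp only [add_apply, ContinuousLinearMap.comp_apply]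
  rw [← map_add]
  simp

lemma cd1 (hf : ContDiffAt ℝ ∞ (fun p : A × B => f p.1 p.2) (u, w)) :
    ContDiffAt ℝ ∞ (fun p : A × B => fderiv ℝ (fun u => f u p.2) p.1) (u, w) :=
  ContDiffAt.fderiv (f := fun (p : A × B) u => f u p.2) (g := Prod.fst) (n := ∞)
    (hf.comp ((u, w), u) (f := fun q : (A × B) × A => (q.2, q.1.2)) (by fun_prop))
    contDiffAt_fst le_rfl

lemma cd2 (hf : ContDiffAt ℝ ∞ (fun p : A × B => f p.1 p.2) (u, w)) :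
    ContDiffAt ℝ ∞ (fun p : A × B => fderiv ℝ (fun w => f p.1 w) p.2) (u, w) :=
  ContDiffAt.fderiv (f := fun (p : A × B) w => f p.1 w) (g := Prod.snd) (n := ∞)
    (hf.comp ((u, w), w) (f := fun q : (A × B) × B => (q.1.1, q.2)) (by fun_prop))
    contDiffAt_snd le_rfl

lemma n1 (hp : (ξ, η) ∈ GO n) : ξ ≠ 0 := hp.1

lemma n2 (hp : (ξ, η) ∈ GO n) : η ≠ 0 := hp.2.1

lemma ev1 (hp : (ξ, η) ∈ GO n) : ∀ᶠ ξ' in 𝓝 ξ, (ξ', η) ∈ GO n :=
  (Continuous.prodMk_left η).continuousAt.preimage_mem_nhds (isOpen_GO.mem_nhds hp)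

lemma ev2 (hp : (ξ, η) ∈ GO n) : ∀ᶠ η' in 𝓝 η, (ξ, η') ∈ GO n :=
  (Continuous.prodMk_right ξ).continuousAt.preimage_mem_nhds (isOpen_GO.mem_nhds hp)

lemma ev3 (hp : (ξ, η) ∈ GO n) (s : ℝ) : ∀ᶠ p in 𝓝 ((ξ, η), s), p.1 ∈ GO n :=
  continuous_fst.continuousAt.preimage_mem_nhds (isOpen_GO.mem_nhds hp)

/-- the inner product as a bilinear map -/
def iB (N : ℕ) : Euc N →L[ℝ] Euc N →L[ℝ] ℝ := innerSL ℝ

lemma iB_apply (u w : Euc N) : iB N u w = ⟪u, w⟫ := rfl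

lemma isInv {T : Euc n →L[ℝ] Euc n →L[ℝ] ℝ} (hT : ∀ e, T e e = 0 → e = 0) : T.IsInvertible := by
  have hi : Function.Injective T.toLinearMap :=
    (injective_iff_map_eq_zero _).2 fun e he => hT e (by rw [show T e = 0 from he]; rfl)
  have hd : Module.finrank ℝ (Euc n) = Module.finrank ℝ (Euc n →L[ℝ] ℝ) := by
    rw [← (LinearMap.toContinuousLinearMap (𝕜 := ℝ) (E := Euc n) (F' := ℝ)).finrank_eq]
    exact Subspace.dual_finrank_eq.symm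
  exact ⟨(LinearMap.linearEquivOfInjective _ hi hd).toContinuousLinearEquiv, by ext; rfl⟩

lemma AA_rev (q : TT N) : AA G (rev q) = U G q := congrArg (U G) (rev_rev q)

lemma tan_eq {q : TT N} (hq : q ∈ US G) {k : Euc N} (hk : k ∈ G.T q.1) :
    k = Pv G q k + ⟪q.2, k⟫ • q.2 := by
  rw [Pv_apply, (P_eq_self G hq.1.1).1 hk, sub_add_cancel]

variable (h : SH G)
include h

lemma pos {q : TT N} (hq : q ∈ US G) {k : Euc N} (hk : k ∈ G.T q.1)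
    (e : ⟪U G q k, k⟫ + ⟪AA G q k, k⟫ + ⟪q.2, k⟫ ^ 2 = 0) : k = 0 := by
  have hU : IsU G (U G) := H.isU h.hyp
  have ha := h.hyp.a_pos
  have h1 := hU.lower q hq _ (Pv_mem hq.1 hq.2 k)
  rw [hU.comp_Pv q hq, hU.symm q hq, hU.comp_Pv q hq, ← hU.symm q hq] at h1
  have h2 := UDn.inner_nonneg hU ha (rev_US hq) k
  have h3 : 0 ≤ a * ‖Pv G q k‖ ^ 2 := by positivity
  have h4 := sq_nonneg ⟪q.2, k⟫
  have h5 : a * ‖Pv G q k‖ ^ 2 = 0 := by linarith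
  have h6 : ⟪q.2, k⟫ ^ 2 = 0 := by linarith
  rw [tan_eq hq hk, pow_eq_zero_iff two_ne_zero |>.1 h6, zero_smul, add_zero]
  simpa [ha.ne'] using h5

variable {X Y : Z → Euc n} {X' Y' : Z →L[ℝ] Euc n} {z : Z}

lemma cW (hX : ContDiffAt ℝ ∞ X z) (hY : ContDiffAt ℝ ∞ Y z) (h0 : X z ≠ 0) :
    ContDiffAt ℝ ∞ (fun z => C.W (X z) (Y z)) z :=
  (C.contDiffAt_W h h0 (Y z)).comp z (f := fun z => (X z, Y z)) (hX.prodMk hY)

lemma cb (hX : ContDiffAt ℝ ∞ X z) (hY : ContDiffAt ℝ ∞ Y z) (h0 : X z ≠ 0) :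
    ContDiffAt ℝ ∞ (fun z => C.b (X z) (Y z)) z :=
  (C.contDiffAt_b h h0 (Y z)).comp z (f := fun z => (X z, Y z)) (hX.prodMk hY)

lemma fW (h0 : ξ ≠ 0) (hX : HasFDerivAt X X' z) (hY : HasFDerivAt Y Y' z) (e1 : X z = ξ)
    (e2 : Y z = x) : HasFDerivAt (fun z => C.W (X z) (Y z))
      (C.KW ξ x ∘L X' + (dP G (C.qq ξ x) - AA G (C.qq ξ x)) ∘L C.Dp x ∘L Y') z := by
  subst e1 e2
  exact (C.hasFDerivAt_W h h0 (Y z)).comp z (hX.prodMk hY)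

lemma fb (h0 : ξ ≠ 0) (hX : HasFDerivAt X X' z) (hY : HasFDerivAt Y Y' z) (e1 : X z = ξ)
    (e2 : Y z = x) : HasFDerivAt (fun z => C.b (X z) (Y z))
      (C.b1 ξ x ∘L X' - innerSL ℝ (C.W ξ x) ∘L C.Dp x ∘L Y') z := by
  subst e1 e2
  exact (C.hasFDerivAt_b2 h h0 (Y z)).comp z (hX.prodMk hY)

end Ft

open Ft

variable (h : SH G)
include h

lemma qq_rev (hx : C.W η x = -C.W ξ x) : C.qq η x = rev (C.qq ξ x) := Prod.ext rfl hx

lemma contDiffAt_FT (hp : (ξ, η) ∈ GO n) (s : ℝ) : ContDiffAt ℝ ∞ C.FT ((ξ, η), s) := by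
  have ha := h.hyp.a_pos
  obtain ⟨hx, hs⟩ := C.ft_spec ha hp s
  set x := C.ft ξ η s with ex
  let Θ : ((Euc n × Euc n) × ℝ) × Euc n → Euc N := fun z =>
    C.W z.1.1.1 z.2 + C.W z.1.1.2 z.2 + (C.b z.1.1.1 z.2 + z.1.2) • C.W z.1.1.1 z.2
  have h0 : ∀ p : (Euc n × Euc n) × ℝ, p.1 ∈ GO n → Θ (p, C.FT p) = 0 := fun p hp => by
    obtain ⟨e1, e2⟩ := C.ft_spec ha (ξ := p.1.1) (η := p.1.2) hp p.2
    simp only [Θ, FT, e1, e2]
    simp
  have c1 : ContDiffAt ℝ ∞ Θ (((ξ, η), s), x) := by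
    have f0 := contDiffAt_fst (𝕜 := ℝ) (n := ∞) (p := (((ξ, η), s), x))
    have w1 := cW C h f0.fst.fst contDiffAt_snd hp.1
    exact (w1.add (cW C h f0.fst.snd contDiffAt_snd hp.2.1)).add
      (((cb C h f0.fst.fst contDiffAt_snd hp.1).add f0.snd).smul w1)
  have c2 : ContDiff ℝ ∞ C.Dp := C.pr_smooth.fderiv_right (m := ∞) le_rfl
  have c3 : ContDiffAt ℝ ∞ (fun z => (iB N (Θ z)).comp (C.Dp z.2)) (((ξ, η), s), x) :=
    ((iB N).contDiff.contDiffAt.comp _ c1).clm_comp (c2.contDiffAt.comp _ contDiffAt_snd)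
  refine ift (Φ := fun z => (iB N (Θ z)).comp (C.Dp z.2)) c3 (isInv fun e he => ?_)
    ((C.continuousOn_ft ha).continuousAt ((isOpen_GO.prod isOpen_univ).mem_nhds ⟨hp, trivial⟩)) ?_
  · have i0 := hasFDerivAt_id (𝕜 := ℝ) x
    have w1 := fW C h (n1 hp) (hasFDerivAt_const ξ x) i0 rfl rfl
    have d1 := (w1.add (fW C h (n2 hp) (hasFDerivAt_const η x) i0 rfl rfl)).add
      (((fb C h (n1 hp) (hasFDerivAt_const ξ x) i0 rfl rfl).add_const s).smul w1)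
    have d2 := ((iB N).hasFDerivAt.comp x d1).clm_comp (c2.differentiable (by simp) x).hasFDerivAt
    have d3 := (c3.differentiableAt (by simp)).hasFDerivAt.comp x (hasFDerivAt_prodMk_right _ x)
    have d4 := he.symm.trans (congrArg (fun T : Euc n →L[ℝ] Euc n →L[ℝ] ℝ => T e e) (d3.unique d2))
    refine C.fderiv_pr_inj x ((pos h (C.qq_mem h (n1 hp) x) (C.fderiv_pr_mem x e) ?_).trans
      (map_zero _).symm)
    simp [C.qq_rev h hx, dP_rev, AA_rev, hx, hs, iB_apply] at d4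
    simp only [qq, Dp] at d4 ⊢
    linarith
  · filter_upwards [ev3 hp s] with p hp'
    rw [h0 p hp', h0 _ hp]
    simp

lemma contDiffAt_cc (hp : (ξ, η) ∈ GO n) :
    ContDiffAt ℝ ∞ (fun p : Euc n × Euc n => C.cc p.1 p.2) (ξ, η) := by
  have c : ContDiffAt ℝ ∞ (fun p : Euc n × Euc n => C.ft p.1 p.2 0) (ξ, η) :=
    (C.contDiffAt_FT h hp 0).comp (ξ, η) (f := fun p => (p, 0)) (by fun_prop)
  exact ((cb C h contDiffAt_fst c hp.1).add (cb C h contDiffAt_snd c hp.2.1)).neg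

lemma hasFDerivAt_cc (hp : (ξ, η) ∈ GO n) :
    HasFDerivAt (fun p : Euc n × Euc n => C.cc p.1 p.2)
      (C.c1 ξ η ∘L ContinuousLinearMap.fst ℝ _ _ + C.c2 ξ η ∘L ContinuousLinearMap.snd ℝ _ _)
      (ξ, η) := split (C.contDiffAt_cc h hp)

lemma contDiffAt_c1 (hp : (ξ, η) ∈ GO n) :
    ContDiffAt ℝ ∞ (fun p : Euc n × Euc n => C.c1 p.1 p.2) (ξ, η) := cd1 (C.contDiffAt_cc h hp)

lemma contDiffAt_c2 (hp : (ξ, η) ∈ GO n) :
    ContDiffAt ℝ ∞ (fun p : Euc n × Euc n => C.c2 p.1 p.2) (ξ, η) := cd2 (C.contDiffAt_cc h hp)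

lemma contDiffAt_MM (hp : (ξ, η) ∈ GO n) :
    ContDiffAt ℝ ∞ (fun p : Euc n × Euc n => C.MMb p.1 p.2) (ξ, η) := cd1 (C.contDiffAt_c2 h hp)

lemma contDiffAt_Mdet (hp : (ξ, η) ∈ GO n) :
    ContDiffAt ℝ ∞ (fun p : Euc n × Euc n => C.Mdet p.1 p.2) (ξ, η) := by
  simp only [Mdet, Matrix.det_apply', Matrix.of_apply]
  refine ContDiffAt.sum fun σ _ => contDiffAt_const.mul (contDiffAt_prod fun i _ => ?_)
  exact (((C.contDiffAt_MM h hp).clm_apply contDiffAt_const).clm_apply contDiffAt_const).sub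
    (by fun_prop)

lemma c2_eq_c1 (hp : (ξ, η) ∈ GO n) : C.c2 ξ η = C.c1 η ξ :=
  EventuallyEq.fderiv_eq ((ev2 hp).mono fun _ h' => (C.cc_symm h.hyp.a_pos h').symm)

/-- the foot point as a function of `ξ` -/
lemma Ft.dF (hp : (ξ, η) ∈ GO n) (s : ℝ) : HasFDerivAt (fun ξ => C.ft ξ η s)
    (fderiv ℝ C.FT ((ξ, η), s) ∘L ContinuousLinearMap.inl ℝ _ _ ∘L ContinuousLinearMap.inl ℝ _ _)
    ξ :=
  ((C.contDiffAt_FT h hp s).differentiableAt (by simp)).hasFDerivAt.comp ξ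
    (f := fun ξ => ((ξ, η), s)) (by
      exact (hasFDerivAt_prodMk_left (𝕜 := ℝ) (ξ, η) s).comp ξ (f := fun ξ => (ξ, η))
        (hasFDerivAt_prodMk_left (𝕜 := ℝ) ξ η))

lemma c1_eq (hp : (ξ, η) ∈ GO n) (hx : C.W η x = -C.W ξ x) : C.c1 ξ η = -C.b1 ξ x := by
  have ha := h.hyp.a_pos
  have ex := C.eq_ft ha hp hx (neg_neg _).symm
  have d0 := dF C h hp (-C.b ξ x)
  have d1 := ((fb C h (n1 hp) (hasFDerivAt_id ξ) d0 rfl ex.symm).add
    (fb C h (n2 hp) (hasFDerivAt_const η ξ) d0 rfl ex.symm)).neg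
  have d2 := d1.congr_of_eventuallyEq (f₁ := fun ξ => C.cc ξ η)
    ((ev1 hp).mono fun _ h' => C.cc_eq ha h' (C.ft_spec ha h' _).1)
  rw [c1, d2.fderiv, hx]
  ext1 e
  simp

lemma c2_eq (hp : (ξ, η) ∈ GO n) (hx : C.W η x = -C.W ξ x) : C.c2 ξ η = -C.b1 η x := by
  rw [C.c2_eq_c1 h hp, C.c1_eq h (GO_symm hp) (by rw [hx, neg_neg])]

lemma c1_self (hp : (ξ, η) ∈ GO n) : C.c1 ξ η ξ = 0 := by
  rw [C.c1_eq h hp (C.ft_spec h.hyp.a_pos hp 0).1, neg_apply, C.b1_self h (n1 hp), neg_zero]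

lemma c2_self (hp : (ξ, η) ∈ GO n) : C.c2 ξ η η = 0 := by
  rw [C.c2_eq_c1 h hp, C.c1_self h (GO_symm hp)]

/-- differential of the foot point -/
lemma fderiv_FT (hp : (ξ, η) ∈ GO n) (hx : x = C.ft ξ η s) (ζ ζ' : Euc n) (σ : ℝ) :
    C.Dp x (fderiv ℝ C.FT ((ξ, η), s) ((ζ, ζ'), σ)) =
      H.Ei G (C.qq ξ x) (C.KW ξ x ζ + C.KW η x ζ') + (σ - C.c1 ξ η ζ) • C.W ξ x := by
  have ha := h.hyp.a_pos
  have hw : C.W η x = -C.W ξ x := hx ▸ (C.ft_spec ha hp s).1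
  have hq := C.qq_mem h (n1 hp) x
  have d0 := ((C.contDiffAt_FT h hp s).differentiableAt (by simp)).hasFDerivAt
  have f1 : HasFDerivAt (fun p : (Euc n × Euc n) × ℝ => p.1.1) _ ((ξ, η), s) :=
    (hasFDerivAt_fst (𝕜 := ℝ) (p := ((ξ, η), s))).fst
  have f2 : HasFDerivAt (fun p : (Euc n × Euc n) × ℝ => p.1.2) _ ((ξ, η), s) :=
    (hasFDerivAt_fst (𝕜 := ℝ) (p := ((ξ, η), s))).snd
  have d1 := ((fW C h (n2 hp) f2 d0 rfl hx.symm).congr_of_eventuallyEq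
    ((ev3 hp s).mono fun p h' => (C.ft_spec ha (ξ := p.1.1) (η := p.1.2) h' p.2).1.symm)).unique
    (fW C h (n1 hp) f1 d0 rfl hx.symm).neg
  have d2 := ((fb C h (n1 hp) f1 d0 rfl hx.symm).congr_of_eventuallyEq
    ((ev3 hp s).mono fun p h' => (C.ft_spec ha (ξ := p.1.1) (η := p.1.2) h' p.2).2.symm)).unique
    hasFDerivAt_snd.neg
  have e1 := congrArg (fun T => T ((ζ, ζ'), σ)) d1
  have e2 := congrArg (fun T => T ((ζ, ζ'), σ)) d2
  have hk := tan_eq hq (C.fderiv_pr_mem x (fderiv ℝ C.FT ((ξ, η), s) ((ζ, ζ'), σ)))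
  simp [C.qq_rev h hw, dP_rev, AA_rev] at e1 e2
  change C.Dp x _ = Pv G _ (C.Dp x _) + ⟪C.W ξ x, C.Dp x _⟫ • C.W ξ x at hk
  generalize C.Dp x (fderiv ℝ C.FT ((ξ, η), s) ((ζ, ζ'), σ)) = k at *
  have e3 : C.KW ξ x ζ + C.KW η x ζ' = U G (C.qq ξ x) k + AA G (C.qq ξ x) k := by
    linear_combination (norm := module) e1
  rw [e3, H.Ei_D (H.isU h.hyp) ha hq, C.c1_eq h hp hw, neg_apply,
    show σ - -C.b1 ξ x ζ = ⟪C.W ξ x, k⟫ by linarith]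
  exact hk

/-- differential of the velocity at the foot point -/
lemma fderiv_WFT (hp : (ξ, η) ∈ GO n) (hx : x = C.ft ξ η s) (ζ ζ' : Euc n) (σ : ℝ) :
    G.P (C.pr x) (fderiv ℝ (fun p => C.W p.1.1 (C.FT p)) ((ξ, η), s) ((ζ, ζ'), σ)) =
      C.KW ξ x ζ - AA G (C.qq ξ x) (H.Ei G (C.qq ξ x) (C.KW ξ x ζ + C.KW η x ζ')) := by
  have hq := C.qq_mem h (n1 hp) x
  have hU : IsU G (U G) := H.isU h.hyp
  have d0 := ((C.contDiffAt_FT h hp s).differentiableAt (by simp)).hasFDerivAt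
  have f1 : HasFDerivAt (fun p : (Euc n × Euc n) × ℝ => p.1.1) _ ((ξ, η), s) :=
    (hasFDerivAt_fst (𝕜 := ℝ) (p := ((ξ, η), s))).fst
  have e1 : G.P (C.pr x) (dP G (C.qq ξ x) (C.Dp x (fderiv ℝ C.FT ((ξ, η), s) ((ζ, ζ'), σ)))) = 0 :=
    dP_tangent_normal hq.1 (C.fderiv_pr_mem x _)
  have e2 : ∀ w ∈ Vp G (C.qq ξ x), G.P (C.pr x) w = w := fun w hw =>
    (P_eq_self G (C.pr_mem x)).1 (mem_Vp.1 hw).1
  have e3 : AA G (C.qq ξ x) (C.W ξ x) = 0 := H.Um_vel hU hq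
  rw [(fW C h (n1 hp) f1 d0 rfl hx.symm).fderiv]
  simp only [add_apply, sub_apply, ContinuousLinearMap.comp_apply, map_add (G.P _), map_sub (G.P _),
    e1, e2 _ (C.KW_mem h (n1 hp) x _), e2 _ (UDn.rev_mem' hU hq _)]
  rw [C.fderiv_FT h hp hx, map_add (AA G _), map_smul, e3]
  simp [sub_eq_add_neg]

lemma hasFDerivAt_c2 (hp : (ξ, η) ∈ GO n) (ζ' : Euc n) :
    HasFDerivAt (fun ξ => C.c2 ξ η ζ') ((C.MMb ξ η).flip ζ') ξ := by
  have := (d1 (C.contDiffAt_c2 h hp)).clm_apply (hasFDerivAt_const ζ' ξ)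
  rwa [ContinuousLinearMap.comp_zero, zero_add] at this

lemma MMb_eq (hp : (ξ, η) ∈ GO n) (hx : C.W η x = -C.W ξ x) (ζ ζ' : Euc n) :
    C.MMb ξ η ζ ζ' = ⟪C.KW ξ x ζ, H.Ei G (C.qq ξ x) (C.KW η x ζ')⟫ := by
  have ha := h.hyp.a_pos
  have ex := C.eq_ft ha hp hx (neg_neg _).symm
  have d0 := C.hasFDerivAt_b1 h (n2 hp) x ζ'
  rw [ex] at d0
  have d1 := ((d0.comp ξ (dF C h hp (-C.b ξ x))).neg.congr_of_eventuallyEq
    (f₁ := fun ξ => C.c2 ξ η ζ') ((ev1 hp).mono fun _ h' =>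
      DFunLike.congr_fun (C.c2_eq h h' (C.ft_spec ha h' (-C.b ξ x)).1) ζ')).unique (C.hasFDerivAt_c2 h hp ζ')
  have e1 := congrArg (fun T => T ζ) d1
  have e2 := (mem_Vp.1 (C.KW_mem h (n2 hp) x ζ')).2
  rw [← ex] at e1
  simp [C.fderiv_FT h hp ex, inner_add_right, inner_smul_right] at e1
  simp [qq, hx] at e2
  rw [← e1, e2, mul_zero, neg_zero, add_zero, ← inner_Ei h (C.qq_mem h (n1 hp) x), real_inner_comm]

lemma MM_symm (hp : (ξ, η) ∈ GO n) (ζ ζ' : Euc n) : C.MMb η ξ ζ' ζ = C.MMb ξ η ζ ζ' := by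
  have hx := (C.ft_spec h.hyp.a_pos hp 0).1
  rw [C.MMb_eq h hp hx, C.MMb_eq h (GO_symm hp) (by rw [hx, neg_neg]), C.qq_rev h hx, Ei_rev h,
    ← inner_Ei h (C.qq_mem h (n1 hp) _), real_inner_comm]

lemma hasFDerivAt_c1 (hp : (ξ, η) ∈ GO n) (ζ : Euc n) :
    HasFDerivAt (fun η => C.c1 ξ η ζ) (C.MMb ξ η ζ) η := by
  have e : C.MMb ξ η ζ = (C.MMb η ξ).flip ζ :=
    ContinuousLinearMap.ext fun ζ' => (C.MM_symm h hp ζ ζ').symm
  rw [e]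
  exact (C.hasFDerivAt_c2 h (GO_symm hp) ζ).congr_of_eventuallyEq
    ((ev2 hp).mono fun _ h' => DFunLike.congr_fun (C.c2_eq_c1 h (GO_symm h')).symm ζ)

lemma MM_self (hp : (ξ, η) ∈ GO n) : C.MMb ξ η ξ = 0 ∧ ∀ ζ, C.MMb ξ η ζ η = 0 := by
  have hx := (C.ft_spec h.hyp.a_pos hp 0).1
  refine ⟨ContinuousLinearMap.ext fun ζ => ?_, fun ζ => ?_⟩
  · rw [C.MMb_eq h hp hx, C.KW_self h (n1 hp), inner_zero_left, zero_apply]
  · rw [C.MMb_eq h hp hx, C.KW_self h (n2 hp), map_zero, inner_zero_right]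

lemma MM_nondeg (hp : (ξ, η) ∈ GG n) (hζ : ⟪ξ, ζ⟫ = 0) (e : C.MMb ξ η ζ = 0) : ζ = 0 := by
  have ho := GG_sub hp
  have ha := h.hyp.a_pos
  have hU : IsU G (U G) := H.isU h.hyp
  have hx := (C.ft_spec ha ho 0).1
  set x := C.ft ξ η 0
  have hq := C.qq_mem h (n1 ho) x
  obtain ⟨ζ', -, e1⟩ := C.KW_surj h (ξ := η) hp.2.1 x
    (w := U G (C.qq ξ x) (C.KW ξ x ζ) + U G (rev (C.qq ξ x)) (C.KW ξ x ζ)) (by
      rw [C.qq_rev h hx, Vp_rev]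
      exact add_mem (hU.mem hq _) (UDn.rev_mem' hU hq _))
  have e2 := C.MMb_eq h ho hx ζ ζ'
  rw [e, e1, H.Ei_D hU ha hq, Pv_of_mem hq.1 (C.KW_mem h (n1 ho) x ζ), zero_apply] at e2
  exact C.KW_eq_zero h hp.1 hζ (inner_self_eq_zero.1 e2.symm)

lemma c1_act (hg : C.Deck g) (hp : (ξ, η) ∈ GO n) (ζ : Euc n) :
    C.c1 (C.act g ξ) (C.act g η) (C.Da g ξ ζ) = C.c1 ξ η ζ + fderiv ℝ (C.be g) ξ ζ := by
  have ha := h.hyp.a_pos
  have a1 := (d1 (C.contDiffAt_cc h (GG_sub (C.act_GO ha hg hp)))).comp ξ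
    ((C.contDiffAt_act h hg (n1 hp)).differentiableAt (by simp)).hasFDerivAt
  have a2 := (((d1 (C.contDiffAt_cc h hp)).add ((C.contDiffAt_be h hg (n1 hp)).differentiableAt
    (by simp)).hasFDerivAt).add_const (C.be g η)).congr_of_eventuallyEq
    ((ev1 hp).mono fun _ h' => C.cc_act ha hg h')
  exact congrArg (fun T => T ζ) (a1.unique a2)

lemma MM_act (hg : C.Deck g) (hp : (ξ, η) ∈ GO n) (ζ ζ' : Euc n) :
    C.MMb (C.act g ξ) (C.act g η) (C.Da g ξ ζ) (C.Da g η ζ') = C.MMb ξ η ζ ζ' := by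
  have ha := h.hyp.a_pos
  have hx := (C.ft_spec ha hp 0).1
  rw [C.MMb_eq h hp hx, C.MMb_eq h (GG_sub (C.act_GO ha hg hp)) (x := g (C.ft ξ η 0))
    (by rw [C.W_act ha hg (n1 hp), C.W_act ha hg (n2 hp), hx]), C.KW_act h hg (n1 hp),
    C.KW_act h hg (n2 hp), C.qq_act h hg (n1 hp)]

end Crest.Agent.N221.Cov
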