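import Crest.Agent.N221.Bd.Sm

/-! Row 221, block Bd: the derivative `KW` of `W` in the boundary variable. -/

set_option autoImplicit false
set_option linter.unusedSectionVars false
set_option linter.unusedVariables false

open MeasureTheory Set Filter Topology
open scoped ContDiff RealInnerProductSpace ENNReal
open Crest.GeometryTopology.Submanifold
open Crest.Agent.R241.DDefs Crest.Agent.R241.D2
open Crest.Agent.R208.J Crest.Agent.R208.L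

noncomputable section

namespace Crest.Agent.N221.Cov

variable {n N : ℕ} {a : ℝ} {S : Set (Euc N)} {G : Geo n N (-(a ^ 2)) S} (C : Cov G)
variable {x y ξ η ζ ζ' : Euc n} {v : Euc N} {g : Euc n → Euc n} {s σ : ℝ}
variable {Z : Type} [NormedAddCommGroup Z] [NormedSpace ℝ Z]

namespace BK

variable {E F : Type} [NormedAddCommGroup E] [NormedSpace ℝ E]

/-- Euler's identity in degree `0` -/
lemma hom_self [NormedAddCommGroup F] [NormedSpace ℝ F] {f : E → F} {x : E}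
    (hf : DifferentiableAt ℝ f x) (h : ∀ t : ℝ, 0 < t → f (t • x) = f x) : fderiv ℝ f x x = 0 := by
  have h1 : HasDerivAt (fun t : ℝ => t • x) x 1 := by simpa using (hasDerivAt_id (1 : ℝ)).smul_const x
  have h2 := hf.hasFDerivAt.comp_hasDerivAt_of_eq 1 h1 (one_smul ℝ x).symm
  exact h2.unique ((hasDerivAt_const 1 (f x)).congr_of_eventuallyEq
    ((lt_mem_nhds one_pos).mono fun t ht => h t ht))

lemma sph_orth [NormedAddCommGroup F] [InnerProductSpace ℝ F] {f : E → F} {f' : E →L[ℝ] F} {x : E}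
    (hf : HasFDerivAt f f' x) (h : ∀ᶠ y in 𝓝 x, ‖f y‖ = 1) (δ : E) : ⟪f x, f' δ⟫ = 0 := by
  have := hf.norm_sq.unique ((hasFDerivAt_const (1 : ℝ) x).congr_of_eventuallyEq
    (h.mono fun y hy => by simp [hy]))
  simpa using congrArg (fun L => L δ) this

lemma fix_mem [NormedAddCommGroup F] [NormedSpace ℝ F] {f : E → F} {f' : E →L[ℝ] F} {x : E}
    (hf : HasFDerivAt f f' x) (L : F →L[ℝ] F) (h : ∀ᶠ y in 𝓝 x, L (f y) = f y) (δ : E) :
    L (f' δ) = f' δ :=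
  congrArg (fun L => L δ) ((L.hasFDerivAt.comp x hf).unique (hf.congr_of_eventuallyEq h))

lemma piO_apply (ξ ζ : Euc n) : piO ξ ζ = ζ - ⟪ξ, ζ⟫ • ξ := rfl

lemma norm_nz {x : E} (hx : x ≠ 0) : ‖‖x‖⁻¹ • x‖ = 1 := norm_smul_inv_norm hx

lemma hasFDerivAt_nz (hξ : ‖ξ‖ = 1) : HasFDerivAt (fun x : Euc n => ‖x‖⁻¹ • x) (piO ξ) ξ := by
  have h0 := bas_ne0 hξ
  have h1 := ((differentiableAt_id (x := ξ)).norm ℝ h0).hasFDerivAt
  have h2 := ((h1.differentiableAt.inv (by simp [h0])).smul differentiableAt_id).hasFDerivAt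
  have h3 := (h1.smul h2).unique ((hasFDerivAt_id ξ).congr_of_eventuallyEq
    ((eventually_ne_nhds h0).mono fun x hx => by simp [smul_smul, hx]))
  have h4 := sph_orth h2 ((eventually_ne_nhds h0).mono fun x hx => norm_nz hx)
  refine h2.congr_fderiv (ContinuousLinearMap.ext fun δ => ?_)
  have h5 := congrArg (fun L => L δ) h3
  have h6 := h4 δ
  simp only [add_apply, id, hξ, one_smul,
    ContinuousLinearMap.smulRight_apply, Pi.smul_apply', Pi.inv_apply, inv_one,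
    ContinuousLinearMap.id_apply] at h5 h6
  have h7 := congrArg (fun w => ⟪ξ, w⟫) h5
  simp only [inner_add_right, h6, inner_smul_right, real_inner_self_eq_norm_sq, hξ] at h7
  rw [piO_apply, ← h7, eq_sub_iff_add_eq]
  simpa using h5

end BK

open BK

variable (h : SH G)
include h

lemma E_rev (q : TT N) : UDn.E G (rev q) = UDn.E G q := by
  rw [UDn.E, UDn.E, rev_rev, Pv_rev, add_comm (U G (rev q))]

lemma Ei_rev (q : TT N) : H.Ei G (rev q) = H.Ei G q := by rw [H.Ei, E_rev h, H.Ei]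

lemma Ei_mem {q : TT N} (hq : q ∈ US G) {w : Euc N} (hw : w ∈ Vp G q) : H.Ei G q w ∈ Vp G q := by
  rw [← H.Pv_Ei (H.isU h.hyp) h.hyp.a_pos hq (Pv_of_mem hq.1 hw)]
  exact Pv_mem hq.1 hq.2 _

lemma Ei_of_perp {q : TT N} (hq : q ∈ US G) {w : Euc N} (hw : Pv G q w = 0) :
    H.Ei G q w = w ∧ UDn.E G q w = w := by
  have hU : IsU G (U G) := H.isU h.hyp
  have e : UDn.E G q w = w := by
    rw [UDn.E_apply, ← hU.comp_Pv q hq, ← H.Um_Pv hU hq, hw]; simp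
  exact ⟨by simpa only [e] using H.Ei_E hU h.hyp.a_pos hq w, e⟩

lemma U_add_A_Ei {q : TT N} (hq : q ∈ US G) {w : Euc N} (hw : w ∈ Vp G q) :
    U G q (H.Ei G q w) + AA G q (H.Ei G q w) = w := by
  have e := H.E_Ei (H.isU h.hyp) h.hyp.a_pos hq w
  rwa [UDn.E_apply, Pv_of_mem hq.1 (Ei_mem h hq hw), sub_self, add_zero] at e

/-- `A E⁻¹ U = U E⁻¹ A` -/
lemma A_Ei_U {q : TT N} (hq : q ∈ US G) (w : Euc N) :
    AA G q (H.Ei G q (U G q w)) = U G q (H.Ei G q (AA G q w)) := by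
  have hU : IsU G (U G) := H.isU h.hyp
  have e1 := congrArg (AA G q) (H.Ei_D hU h.hyp.a_pos hq w)
  rw [map_add, map_add, H.Um_Pv hU hq] at e1
  exact add_right_cancel (e1.trans (U_add_A_Ei h hq (UDn.rev_mem' hU hq w)).symm)

lemma inner_Ei {q : TT N} (hq : q ∈ US G) (w w' : Euc N) :
    ⟪H.Ei G q w, w'⟫ = ⟪w, H.Ei G q w'⟫ := by
  have hU : IsU G (U G) := H.isU h.hyp
  have e : ∀ x y, ⟪UDn.E G q x, y⟫ = ⟪x, UDn.E G q y⟫ := fun x y => by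
    simp only [UDn.E_apply, inner_add_left, inner_add_right, inner_sub_left, inner_sub_right,
      hU.symm q hq, hU.symm _ (rev_US hq), inner_Pv hq.1]
  have := e (H.Ei G q w) (H.Ei G q w')
  rw [H.E_Ei hU h.hyp.a_pos hq, H.E_Ei hU h.hyp.a_pos hq] at this
  exact this.symm

lemma hasFDerivAt_KW (hξ : ξ ≠ 0) (y : Euc n) : HasFDerivAt (fun ξ => C.W ξ y) (C.KW ξ y) ξ :=
  ((C.hasFDerivAt_W h hξ y).differentiableAt.comp (f := fun ξ => (ξ, y)) ξ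
    (differentiableAt_id.prodMk (differentiableAt_const y))).hasFDerivAt

lemma hasFDerivAt_Da (hg : C.Deck g) (hξ : ξ ≠ 0) : HasFDerivAt (C.act g) (C.Da g ξ) ξ :=
  ((C.contDiffAt_act h hg hξ).differentiableAt (by simp)).hasFDerivAt

lemma KT_apply (ξ y ζ : Euc n) : C.KT ξ y ζ = C.KW ξ y ζ + ⟪ξ, ζ⟫ • C.W ξ y := rfl

lemma KW_self (hξ : ξ ≠ 0) (y : Euc n) : C.KW ξ y ξ = 0 :=
  hom_self (C.hasFDerivAt_KW h hξ y).differentiableAt fun _ ht => C.W_smul ht ξ y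

lemma b1_self (hξ : ξ ≠ 0) (y : Euc n) : C.b1 ξ y ξ = 0 :=
  hom_self ((C.hasFDerivAt_b2 h hξ y).differentiableAt.comp (f := fun ξ => (ξ, y)) ξ
    (differentiableAt_id.prodMk (differentiableAt_const y))) fun _ ht => C.b_smul ht ξ y

lemma KW_piO (hξ : ξ ≠ 0) (y ζ : Euc n) : C.KW ξ y (piO ξ ζ) = C.KW ξ y ζ := by
  rw [piO_apply, map_sub, map_smul, C.KW_self h hξ, smul_zero, sub_zero]

lemma inner_W_KW (hξ : ξ ≠ 0) (y ζ : Euc n) : ⟪C.W ξ y, C.KW ξ y ζ⟫ = 0 :=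
  sph_orth (C.hasFDerivAt_KW h hξ y)
    ((eventually_ne_nhds hξ).mono fun _ hx => (C.un_W h.hyp.a_pos hx y).norm) ζ

lemma KW_mem (hξ : ξ ≠ 0) (y ζ : Euc n) : C.KW ξ y ζ ∈ Vp G (C.qq ξ y) :=
  mem_Vp.2 ⟨(P_eq_self G (C.pr_mem y)).2 (fix_mem (C.hasFDerivAt_KW h hξ y) (G.P (C.pr y))
    ((eventually_ne_nhds hξ).mono fun _ hx =>
      (P_eq_self G (C.pr_mem y)).1 (C.un_W h.hyp.a_pos hx y).mem) ζ),
    (real_inner_comm _ _).trans (C.inner_W_KW h hξ y ζ)⟩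

lemma KT_mem (hξ : ξ ≠ 0) (y ζ : Euc n) : C.KT ξ y ζ ∈ G.T (C.pr y) :=
  add_mem (mem_Vp.1 (C.KW_mem h hξ y ζ)).1 (Submodule.smul_mem _ _ (C.un_W h.hyp.a_pos hξ y).mem)

lemma KT_self (hξ : ‖ξ‖ = 1) (y : Euc n) : C.KT ξ y ξ = C.W ξ y := by
  rw [C.KT_apply h, C.KW_self h (bas_ne0 hξ), real_inner_self_eq_norm_sq, hξ]; simp

lemma inner_W_KT (hξ : ξ ≠ 0) (y ζ : Euc n) : ⟪C.W ξ y, C.KT ξ y ζ⟫ = ⟪ξ, ζ⟫ := by
  rw [C.KT_apply h, inner_add_right, C.inner_W_KW h hξ, inner_smul_right, real_inner_self_eq_norm_sq,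
    (C.un_W h.hyp.a_pos hξ y).norm]
  simp

lemma norm_KT_zero (hξ : ‖ξ‖ = 1) (ζ : Euc n) : ‖C.KT ξ 0 ζ‖ = ‖ζ‖ := by
  obtain ⟨A, hA⟩ := C.lg_zero
  have e : ∀ x : Euc n, x ≠ 0 → C.W x 0 = A (‖x‖⁻¹ • x) := fun x hx => by
    rw [C.W_zero h.hyp.a_pos hx, dir, hA, A.norm_map, map_smul]
  have h1 := (C.hasFDerivAt_KW h (bas_ne0 hξ) 0).unique
    ((A.toContinuousLinearMap.hasFDerivAt.comp ξ (hasFDerivAt_nz hξ)).congr_of_eventuallyEq
      ((eventually_ne_nhds (bas_ne0 hξ)).mono e))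
  rw [C.KT_apply h, h1, e ξ (bas_ne0 hξ), hξ, inv_one, one_smul, ← A.norm_map ζ]
  simp [piO_apply]

lemma KW_eq_zero (hξ : ‖ξ‖ = 1) (hζ : ⟪ξ, ζ⟫ = 0) (e : C.KW ξ y ζ = 0) : ζ = 0 := by
  obtain ⟨Ep, hE⟩ := C.exists_Ep h
  have h0 := bas_ne0 hξ
  have h1 := ((hE y _ (C.un_W h.hyp.a_pos h0 y)).1.differentiableAt (by simp)).hasFDerivAt.comp ξ
    ((hasFDerivAt_const y ξ).prodMk (C.hasFDerivAt_KW h h0 y))
  have h2 := h1.unique ((hasFDerivAt_nz hξ).congr_of_eventuallyEq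
    ((eventually_ne_nhds h0).mono fun x hx => by
      rw [Function.comp_apply, (hE y _ (C.un_W h.hyp.a_pos hx y)).2,
        ← C.W_smul (inv_pos.2 (norm_pos_iff.2 hx)), C.ep_W h.hyp.a_pos (norm_nz hx)]))
  have h3 := congrArg (fun L => L ζ) h2
  simpa [piO_apply, hζ, e, Prod.mk_zero_zero] using h3.symm

lemma KT_inj (hξ : ‖ξ‖ = 1) (y : Euc n) : Function.Injective (C.KT ξ y) := by
  refine (injective_iff_map_eq_zero _).2 fun ζ e => ?_
  have h1 := C.inner_W_KT h (bas_ne0 hξ) y ζ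
  rw [e, inner_zero_right] at h1
  rw [C.KT_apply h, ← h1, zero_smul, add_zero] at e
  exact C.KW_eq_zero h hξ h1.symm e

/-- differential of the end point map -/
lemma fderiv_ep {X : Z → Euc n} {V : Z → Euc N} {z : Z} (hX : DifferentiableAt ℝ X z)
    (hV : DifferentiableAt ℝ V z) (hu : ∀ᶠ z' in 𝓝 z, C.Un (X z') (V z')) (δ : Z) :
    ⟪C.ep (X z) (V z), fderiv ℝ (fun z => C.ep (X z) (V z)) z δ⟫ = 0 ∧
    C.KW (C.ep (X z) (V z)) (X z) (fderiv ℝ (fun z => C.ep (X z) (V z)) z δ) =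
      G.P (C.pr (X z)) (fderiv ℝ V z δ) +
        AA G (C.pr (X z), V z) (C.Dp (X z) (fderiv ℝ X z δ)) := by
  have ha := h.hyp.a_pos
  have he := (C.differentiableAt_ep h hX hV hu).hasFDerivAt
  have h0 := hu.self_of_nhds
  have h1 := C.ep_ne_zero ha h0
  refine ⟨sph_orth he (hu.mono fun _ hz => C.norm_ep ha hz) δ, ?_⟩
  have h2 := (C.hasFDerivAt_W h h1 (X z)).comp (f := fun z => (C.ep (X z) (V z), X z)) z
    (he.prodMk hX.hasFDerivAt)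
  replace h2 := hV.hasFDerivAt.unique (h2.congr_of_eventuallyEq
    (hu.mono fun _ hz => (C.W_ep_self ha hz).symm))
  have h3 := mem_Vp.1 (C.KW_mem h h1 (X z) (fderiv ℝ (fun z => C.ep (X z) (V z)) z δ))
  have hq : C.qq (C.ep (X z) (V z)) (X z) = (C.pr (X z), V z) := by rw [qq, C.W_ep_self ha h0]
  have h4 := dP_tangent_normal h0.ts (C.fderiv_pr_mem (X z) (fderiv ℝ X z δ))
  have h5 := mem_Vp.1 (UDn.rev_mem' (H.isU h.hyp) h0 (C.Dp (X z) (fderiv ℝ X z δ)))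
  rw [h2, hq]
  simp only [add_apply, ContinuousLinearMap.comp_apply,
    ContinuousLinearMap.prod_apply, ContinuousLinearMap.coe_fst', ContinuousLinearMap.coe_snd',
    sub_apply, map_add, map_sub]
  rw [(P_eq_self G (C.pr_mem _)).1 h3.1, (P_eq_self G (C.pr_mem _)).1 h5.1, Dp, h4]
  abel

lemma KW_surj (hξ : ‖ξ‖ = 1) (y : Euc n) {w : Euc N} (hw : w ∈ Vp G (C.qq ξ y)) :
    ∃ ζ, ⟪ξ, ζ⟫ = 0 ∧ C.KW ξ y ζ = w := by
  have ha := h.hyp.a_pos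
  have hv := C.un_W ha (bas_ne0 hξ) y
  obtain ⟨w1, w2⟩ := mem_Vp.1 hw
  have h1 : HasDerivAt (fun t : ℝ => C.W ξ y + t • w) w 0 := by
    simpa using ((hasDerivAt_id (0 : ℝ)).smul_const w).const_add (C.W ξ y)
  have h2 := (hasFDerivAt_nz hv.norm).comp_hasDerivAt_of_eq 0 h1 (by simp)
  have h3 : ∀ᶠ t : ℝ in 𝓝 0, C.W ξ y + t • w ≠ 0 :=
    h1.continuousAt.eventually_ne (by simpa using bas_ne0 hv.norm)
  have h4 := C.fderiv_ep h (differentiableAt_const y) h2.differentiableAt (h3.mono fun t ht =>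
    ⟨⟨C.pr_mem y, Submodule.smul_mem _ _ (add_mem hv.mem (Submodule.smul_mem _ _ w1))⟩,
      norm_nz ht⟩) 1
  rw [h2.hasFDerivAt.fderiv] at h4
  have e : ⟪C.W ξ y, w⟫ = 0 := (real_inner_comm _ _).trans w2
  simp only [Function.comp_apply, zero_smul, add_zero, hv.norm, inv_one, one_smul, C.ep_W ha hξ,
    fderiv_fun_const, Pi.zero_apply, zero_apply, map_zero, piO_apply, e, sub_zero,
    ContinuousLinearMap.toSpanSingleton_apply, (P_eq_self G (C.pr_mem y)).1 w1] at h4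
  exact ⟨_, h4⟩

lemma KT_surj (hξ : ‖ξ‖ = 1) (y : Euc n) {w : Euc N} (hw : w ∈ G.T (C.pr y)) :
    ∃ ζ, C.KT ξ y ζ = w := by
  have hq := C.qq_mem h (bas_ne0 hξ) y
  obtain ⟨ζ, h1, h2⟩ := C.KW_surj h hξ y (Pv_mem hq.1 hq.2 w)
  refine ⟨ζ + ⟪C.W ξ y, w⟫ • ξ, ?_⟩
  rw [map_add, map_smul, C.KT_self h hξ, C.KT_apply h, h1, h2, zero_smul, add_zero, Pv_apply]
  exact (sub_add_cancel _ _).trans ((P_eq_self G (C.pr_mem y)).1 hw)

lemma Da_self (hg : C.Deck g) (hξ : ξ ≠ 0) : C.Da g ξ ξ = 0 :=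
  hom_self (C.hasFDerivAt_Da h hg hξ).differentiableAt fun _ ht => C.act_smul ht g ξ

lemma inner_Da (hg : C.Deck g) (hξ : ξ ≠ 0) (ζ : Euc n) : ⟪C.act g ξ, C.Da g ξ ζ⟫ = 0 :=
  sph_orth (C.hasFDerivAt_Da h hg hξ)
    ((eventually_ne_nhds hξ).mono fun _ hx => C.norm_act h.hyp.a_pos hg hx) ζ

lemma KW_act (hg : C.Deck g) (hξ : ξ ≠ 0) (y ζ : Euc n) :
    C.KW (C.act g ξ) (g y) (C.Da g ξ ζ) = C.KW ξ y ζ :=
  congrArg (fun L => L ζ) (((C.hasFDerivAt_KW h (C.act_ne_zero h.hyp.a_pos hg hξ) (g y)).comp ξ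
    (C.hasFDerivAt_Da h hg hξ)).unique ((C.hasFDerivAt_KW h hξ y).congr_of_eventuallyEq
      ((eventually_ne_nhds hξ).mono fun _ hx => C.W_act h.hyp.a_pos hg hx y)))

lemma KT_act (hg : C.Deck g) (hξ : ξ ≠ 0) (y : Euc n) :
    C.KT (C.act g ξ) (g y) ∘L C.DT g ξ = C.KT ξ y := by
  ext1 ζ
  change C.KT (C.act g ξ) (g y) (C.Da g ξ ζ + ⟪ξ, ζ⟫ • C.act g ξ) = _
  rw [map_add, map_smul, C.KT_self h (C.norm_act h.hyp.a_pos hg hξ), C.KT_apply h, C.KW_act h hg hξ,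
    C.inner_Da h hg hξ, zero_smul, add_zero, C.W_act h.hyp.a_pos hg hξ, C.KT_apply h]

lemma DT_inj (hg : C.Deck g) (hξ : ‖ξ‖ = 1) : Function.Injective (C.DT g ξ) := by
  have := C.KT_inj h hξ 0
  rw [← C.KT_act h hg (bas_ne0 hξ) 0] at this
  exact Function.Injective.of_comp (f := C.KT (C.act g ξ) (g 0)) this

lemma qq_gd (hξ : ξ ≠ 0) (y : Euc n) (t : ℝ) :
    C.qq ξ (C.gd y (C.W ξ y) t) = fl G (C.qq ξ y, t) := by
  rw [qq, qq, C.up_gd (C.un_W h.hyp.a_pos hξ y).mem, C.W_gd h.hyp.a_pos hξ]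

lemma qq_act (hg : C.Deck g) (hξ : ξ ≠ 0) (y : Euc n) : C.qq (C.act g ξ) (g y) = C.qq ξ y := by
  rw [qq, qq, hg.pr_eq, C.W_act h.hyp.a_pos hg hξ]

/-- `KW` along the geodesic to `ξ` -/
lemma KW_flow (hξ : ξ ≠ 0) (y ζ : Euc n) (t : ℝ) :
    C.KW ξ (C.gd y (C.W ξ y) t) ζ = UDn.E G (fl G (C.qq ξ y, t))
      (PT G (C.qq ξ y) t (Ju G (C.qq ξ y) t (H.Ei G (C.qq ξ y) (C.KW ξ y ζ)))) := by
  have hU : IsU G (U G) := H.isU h.hyp
  have hq := C.qq_mem h hξ y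
  have hK := C.hasFDerivAt_KW h hξ y
  have hc : HasFDerivAt (fun ξ => C.gd y (C.W ξ y) t) _ ξ :=
    ((C.contDiff_gd.differentiable (by simp) _).comp ξ ((differentiableAt_const y).prodMk
      (hK.differentiableAt.prodMk (differentiableAt_const t)))).hasFDerivAt
  have h1 : HasFDerivAt (fun ξ => C.qq ξ (C.gd y (C.W ξ y) t)) _ ξ :=
    ((C.diff_pr _).hasFDerivAt.comp ξ hc).prodMk
      ((C.hasFDerivAt_W h hξ _).comp (f := fun ξ => (ξ, C.gd y (C.W ξ y) t)) ξ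
        ((hasFDerivAt_id ξ).prodMk hc))
  have h2 : HasFDerivAt (fun ξ => fl G (C.qq ξ y, t)) _ ξ :=
    HasFDerivAt.comp (g := fun q => fl G (q, t)) (f := fun ξ => C.qq ξ y) ξ
      (hasFDerivAt_fl_left hq.1 t) ((hasFDerivAt_const (C.pr y) ξ).prodMk hK)
  have h3 := congrArg (fun L => L ζ) (h1.unique (h2.congr_of_eventuallyEq
    ((eventually_ne_nhds hξ).mono fun _ hx => C.qq_gd h hx y t)))
  have e : ∀ u, dfl G (C.qq ξ y) t u = Dfl G (C.qq ξ y) t u := dfl_apply hq.1 t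
  have h4 := H.vu_sub_vs (G := G) (z := C.qq ξ y) (H.Ei G (C.qq ξ y) (C.KW ξ y ζ))
  rw [U_add_A_Ei h hq (C.KW_mem h hξ y ζ)] at h4
  simp only [add_apply, ContinuousLinearMap.comp_apply,
    ContinuousLinearMap.prod_apply, ContinuousLinearMap.coe_fst', ContinuousLinearMap.coe_snd',
    sub_apply, zero_apply, ContinuousLinearMap.id_apply,
    C.qq_gd h hξ] at h3
  rw [← h4, map_sub, e, e, H.Dfl_vu h.hyp hq, H.Dfl_vs h.hyp hq, H.vu_apply, H.vs_apply,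
    Prod.mk_sub_mk, Prod.mk.injEq, Dp] at h3
  obtain ⟨h5, h6⟩ := h3
  rw [h5, map_sub, map_sub, H.Um_Pv hU (fl_US hq t), H.Um_Pv hU (fl_US hq t)] at h6
  rw [UDn.E_apply, Pv_PT hq.1, Pv_of_mem hq.1 (Ju_mem h.hyp.cpt hU hq t _), sub_self, add_zero]
  linear_combination (norm := abel_nf) h6

end Crest.Agent.N221.Cov
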