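import Crest.Agent.N221.Bd.Br
import Crest.Agent.N221.Bd.Alg

/-! Row 221, step P7: a Killing pair with linear Hamiltonian that fixes `(ξ, η)`. -/

set_option autoImplicit false
set_option linter.unusedSectionVars false
set_option linter.unusedVariables false
set_option maxHeartbeats 400000

open MeasureTheory Set Filter Topology
open scoped ContDiff RealInnerProductSpace ENNReal
open Crest.GeometryTopology.Submanifold
open Crest.Agent.R241.DDefs Crest.Agent.R241.D2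
open Crest.Agent.R208.J Crest.Agent.R208.L

noncomputable section

namespace Crest.Agent.N221.Cov

variable {n N : ℕ} {a : ℝ} {S : Set (Euc N)} {G : Geo n N (-(a ^ 2)) S} (C : Cov G)
variable {x y ξ η ζ ζ' : Euc n} {v : Euc N} {g : Euc n → Euc n} {s σ : ℝ}
variable {Z : Type} [NormedAddCommGroup Z] [NormedSpace ℝ Z]

variable {Y Y' : Euc n → Euc n} {f f' : Euc n → ℝ} {Zf : Euc n → Euc N} {c : ℝ}

/-- the Hamiltonian of the pair is `c + ⟪Z, v⟫` -/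
structure Lin (Y : Euc n → Euc n) (f : Euc n → ℝ) (Zf : Euc n → Euc N) (c : ℝ) : Prop where
  diff : Differentiable ℝ Zf
  tan : ∀ x, Zf x ∈ G.T (C.pr x)
  eq : ∀ x v, C.Un x v → C.muK Y f x v = c + ⟪Zf x, v⟫

namespace P7h

/-- a curve on the unit sphere with prescribed velocity -/
lemma circ {E : Type} [NormedAddCommGroup E] [InnerProductSpace ℝ E] {v w : E} (hv : ‖v‖ = 1)
    (hw : ⟪v, w⟫ = 0) : ∃ V : ℝ → E, HasDerivAt V w 0 ∧ V 0 = v ∧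
      ∀ t, ‖V t‖ = 1 ∧ ∃ α β : ℝ, V t = α • v + β • w := by
  by_cases h0 : w = 0
  · exact ⟨fun _ => v, h0 ▸ hasDerivAt_const _ _, rfl, fun _ => ⟨hv, 1, 0, by simp⟩⟩
  have h1 : ‖w‖ ≠ 0 := norm_ne_zero_iff.2 h0
  refine ⟨fun t => Real.cos (‖w‖ * t) • v + (Real.sin (‖w‖ * t) / ‖w‖) • w, ?_, by simp,
    fun t => ⟨?_, _, _, rfl⟩⟩
  · have h2 : HasDerivAt (fun t : ℝ => ‖w‖ * t) ‖w‖ 0 := by
      simpa using (hasDerivAt_id (0 : ℝ)).const_mul ‖w‖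
    refine ((h2.cos.smul_const v).add ((h2.sin.div_const ‖w‖).smul_const w)).congr_deriv ?_
    simp [h1]
  · refine (pow_eq_one_iff_of_nonneg (norm_nonneg _) two_ne_zero).1 ?_
    rw [norm_add_sq_real, inner_smul_left, inner_smul_right, hw, norm_smul, norm_smul, hv, mul_pow,
      mul_pow, Real.norm_eq_abs, Real.norm_eq_abs, sq_abs, sq_abs, div_pow,
      div_mul_cancel₀ _ (pow_ne_zero 2 h1)]
    simp

lemma hasDerivAt_op {L : ℝ → Op N} {L' : Op N} {t : ℝ}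
    (h : ∀ w, HasDerivAt (fun t => L t w) (L' w) t) : HasDerivAt L L' t := by
  have key : ∀ M : Op N, M = ∑ i, ContinuousLinearMap.smulRightL ℝ (Euc N) (Euc N)
      (EuclideanSpace.proj i) (M (EuclideanSpace.single i 1)) := fun M => by
    ext1 w
    conv_lhs => rw [← (EuclideanSpace.basisFun (Fin N) ℝ).sum_repr w]
    simp
  rw [show L = _ from funext fun t => key (L t), key L']
  exact HasDerivAt.fun_sum fun i _ => (ContinuousLinearMap.smulRightL ℝ (Euc N) (Euc N)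
    (EuclideanSpace.proj i)).hasFDerivAt.comp_hasDerivAt t (h _)

lemma exists_left {m : ℕ} (K : Euc n →L[ℝ] Euc m) (hK : Function.Injective K) :
    ∃ L : Euc m →L[ℝ] Euc n, ∀ u, L (K u) = u := by
  obtain ⟨L, hL⟩ := (K : Euc n →ₗ[ℝ] Euc m).exists_leftInverse_of_injective
    (LinearMap.ker_eq_bot.2 hK)
  exact ⟨LinearMap.toContinuousLinearMap L, fun u => LinearMap.congr_fun hL u⟩

lemma exists_R (y : Euc n) :
    ∃ R : Euc N →L[ℝ] Euc n, ∀ w ∈ G.T (C.pr y), C.Dp y (R w) = w := by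
  obtain ⟨R, hR⟩ := exists_left (C.Dp y) (C.fderiv_pr_inj y)
  refine ⟨R, fun w hw => ?_⟩
  obtain ⟨u, rfl⟩ := C.fderiv_pr_surj y hw
  exact congrArg (C.Dp y) (hR u)

variable {q : TT N}

lemma Pv_P (hq : q ∈ TS G) (w : Euc N) : Pv G q (G.P q.1 w) = Pv G q w := by
  rw [Pv_apply, Pv_apply, P_idem G hq.1, ← inner_P_left G hq.1, (P_eq_self G hq.1).1 hq.2]

lemma hat_pow (F : TT N → Op N) (hq : q ∈ TS G) (t : ℝ) (k : ℕ) :
    hat G (fun z => F z ^ k) q t = hat G F q t ^ k := by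
  induction k with
  | zero => exact hat_id hq t
  | succ k ih =>
    rw [pow_succ (hat G F q t), ← ih]
    exact hat_comp (fun z => F z ^ k) F hq t

/-- the unstable Jacobi tensor extended by the identity -/
def Jf (G : Geo n N (-(a ^ 2)) S) (q : TT N) (t : ℝ) : Op N :=
  Ju G q t + (ContinuousLinearMap.id ℝ (Euc N) - Pv G q)

lemma Jf_apply (t : ℝ) (w : Euc N) : Jf G q t w = Ju G q t w + (w - Pv G q w) := rfl

variable (hy : Hyp n N a S) (hq : q ∈ US G)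
include hy hq

lemma isUnit_Jf (t : ℝ) : IsUnit (Jf G q t) :=
  ContinuousLinearMap.isUnit_iff_isUnit_toLinearMap.2 ((LinearMap.isUnit_iff_isUnit_det _).2
    ((det_Ju hy.cpt (H.isU hy) hq t).trans_gt (Real.exp_pos _)).ne'.isUnit)

lemma Pv_Jf (t : ℝ) (w : Euc N) : Pv G q (Jf G q t w) = Ju G q t w := by
  rw [Jf_apply, map_add, map_sub, Pv_Pv hq, sub_self, add_zero,
    Pv_of_mem hq.1 (Ju_mem hy.cpt (H.isU hy) hq t w)]

lemma hat_Jf (t t' : ℝ) (w : Euc N) :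
    hat G (U G) q t (Jf G q t' w) = hat G (U G) q t (Ju G q t' w) := by
  rw [← (H.isU hy).hat_Pv hq, Pv_Jf hy hq]

lemma hasDerivAt_Jf (t : ℝ) : HasDerivAt (Jf G q) (hat G (U G) q t ∘L Jf G q t) t :=
  hasDerivAt_op fun w => ((hasDerivAt_Ju hy.cpt (H.isU hy) hq t w).add_const
    (w - Pv G q w)).congr_deriv (hat_Jf hy hq t t w).symm

lemma Ju_Pv (t : ℝ) (w : Euc N) : Ju G q t (Pv G q w) = Ju G q t w := by
  rw [Ju_apply, Ju_apply, Pv_Pv hq, (H.isU hy).comp_Pv q hq]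

lemma Jf_mem (t : ℝ) {w : Euc N} (hw : w ∈ Vp G q) : Jf G q t w = Ju G q t w := by
  rw [Jf_apply, Pv_of_mem hq.1 hw, sub_self, add_zero]

end P7h

open P7h

variable (h : SH G)
include h

lemma P7h.exists_lam (hξ : ‖ξ‖ = 1) (y : Euc n) : ∃ l : Euc N →L[ℝ] Euc n,
    (∀ w, ⟪ξ, l w⟫ = 0 ∧ H.Ei G (C.qq ξ y) (C.KW ξ y (l w)) = Pv G (C.qq ξ y) w) ∧
      ∀ ζ, l (H.Ei G (C.qq ξ y) (C.KW ξ y ζ)) = piO ξ ζ := by
  have h0 := bas_ne0 hξ
  have hq := C.qq_mem h h0 y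
  have hU : IsU G (U G) := H.isU h.hyp
  have ha := h.hyp.a_pos
  obtain ⟨L, hL⟩ := exists_left (C.KT ξ y) (C.KT_inj h hξ y)
  have hK : ∀ ζ, ⟪ξ, ζ⟫ = 0 → L (C.KW ξ y ζ) = ζ := fun ζ hζ => by
    rw [← hL ζ, hL ζ]
    conv_rhs => rw [← hL ζ]
    simp [KT, hζ]
  refine ⟨L ∘L UDn.E G (C.qq ξ y) ∘L Pv G (C.qq ξ y), fun w => ?_, fun ζ => ?_⟩
  · have hm : UDn.E G (C.qq ξ y) (Pv G (C.qq ξ y) w) ∈ Vp G (C.qq ξ y) := by
      rw [UDn.E_apply, Pv_Pv hq, sub_self, add_zero]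
      exact Submodule.add_mem _ (hU.mem hq _) (UDn.rev_mem' hU hq _)
    obtain ⟨ζ, h1, h2⟩ := C.KW_surj h hξ y hm
    simp only [ContinuousLinearMap.comp_apply]
    rw [← h2, hK ζ h1, h2, H.Ei_E hU ha hq]
    exact ⟨h1, rfl⟩
  · simp only [ContinuousLinearMap.comp_apply]
    rw [Pv_of_mem hq.1 (Ei_mem h hq (C.KW_mem h h0 y ζ)), H.E_Ei hU ha hq, ← C.KW_piO h h0, hK]
    simp [piO, inner_sub_right, inner_smul_right, hξ]

lemma P7h.KW_mem' (hp : (ξ, η) ∈ GG n) (hx : x = C.ft ξ η s) (ζ ζ' : Euc n) :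
    C.KW ξ x ζ + C.KW η x ζ' ∈ Vp G (C.qq ξ x) := by
  refine Submodule.add_mem _ (C.KW_mem h (bas_ne0 hp.1) x ζ) ?_
  rw [← Vp_rev, ← C.qq_rev h (hx ▸ (C.ft_spec h.hyp.a_pos (GG_sub hp) s).1)]
  exact C.KW_mem h (bas_ne0 hp.2.1) x ζ'

lemma Lin.jK (hK : C.Kill Y f Y' f') (hL : C.Lin Y f Zf c) (hv : C.Un x v) :
    C.jK Y Y' x v = Pv G (C.pr x, v) (Zf x) := by
  have key : ∀ w ∈ Vp G (C.pr x, v), ⟪w, C.jK Y Y' x v - Pv G (C.pr x, v) (Zf x)⟫ = 0 := by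
    intro w hw
    obtain ⟨hw1, hw2⟩ := mem_Vp.1 hw
    obtain ⟨V, hV, hV0, hV1⟩ := circ (Un.norm C hv) ((real_inner_comm _ _).trans hw2)
    have hu : ∀ t, C.Un x (V t) := fun t => by
      obtain ⟨h1, α, β, h2⟩ := hV1 t
      refine ⟨⟨C.pr_mem x, ?_⟩, h1⟩
      rw [h2]
      exact Submodule.add_mem _ (Submodule.smul_mem _ _ (Un.mem C hv)) (Submodule.smul_mem _ _ hw1)
    have h1 := (C.fderiv_muK h hK (X := fun _ : ℝ => x) (differentiableAt_const x)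
      hV.differentiableAt (.of_forall hu)).2 1
    have h2 : HasDerivAt (fun t => C.muK Y f x (V t)) ⟪Zf x, w⟫ 0 := by
      simp only [hL.eq x _ (hu _)]
      simpa using ((hasDerivAt_const (0 : ℝ) (Zf x)).inner ℝ hV).const_add c
    rw [fderiv_apply_one_eq_deriv, fderiv_apply_one_eq_deriv, h2.deriv, hV.deriv, hV0] at h1
    simp only [fderiv_fun_const, Pi.zero_apply, zero_apply, map_zero, inner_zero_left,
      sub_zero] at h1
    rw [inner_sub_right, ← h1, ← inner_Pv (Un.ts C hv), Pv_of_mem (Un.ts C hv) hw,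
      real_inner_comm, sub_self]
  exact sub_eq_zero.1 (inner_self_eq_zero.1 (key _ (Submodule.sub_mem _ (C.jK_mem h hv)
    (Pv_mem (Un.ts C hv) (Un.norm C hv) _))))

lemma Lin.skew (hL : C.Lin Y f Zf c) (x e e' : Euc n) :
    ⟪fderiv ℝ Zf x e, C.Dp x e'⟫ = -⟪C.Dp x e, fderiv ℝ Zf x e'⟫ := by
  have k1 : ∀ e, ‖C.Dp x e‖ = 1 → ⟪fderiv ℝ Zf x e, C.Dp x e⟫ = 0 := by
    intro e he
    have hm : C.Dp x e ∈ G.T (C.pr x) := C.fderiv_pr_mem x e
    have hv : C.Un x (C.Dp x e) := ⟨⟨C.pr_mem x, hm⟩, he⟩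
    have e1 : deriv (C.gd x (C.Dp x e)) 0 = e := by
      have := C.fderiv_pr_deriv_gd hm 0
      rw [gd_zero, vel_zero] at this
      exact C.fderiv_pr_inj x this
    have h1 : HasDerivAt (fun t => Zf (C.gd x (C.Dp x e) t)) (fderiv ℝ Zf x e) 0 := by
      have := (hL.diff (C.gd x (C.Dp x e) 0)).hasFDerivAt.comp_hasDerivAt 0
        (C.hasDerivAt_gd x (C.Dp x e) 0)
      rwa [gd_zero, e1] at this
    have h2 : HasDerivAt (C.vel x (C.Dp x e)) (dP G (C.pr x, C.Dp x e) (C.Dp x e)) 0 := by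
      have := (hasDerivAt_fl G (complete G (Un.ts C hv) 0)).snd
      rwa [fl_zero] at this
    have h3 : ∀ t, ⟪Zf (C.gd x (C.Dp x e) t), C.vel x (C.Dp x e) t⟫ =
        C.muK Y f x (C.Dp x e) - c := fun t => by
      rw [← C.muK_gd h hv t, hL.eq _ _ (Un.vel C hv t), add_sub_cancel_left]
    have h4 := h1.inner ℝ h2
    simp only [h3] at h4
    have h5 := h4.unique (hasDerivAt_const _ _)
    rw [gd_zero, vel_zero, ← (P_eq_self G (C.pr_mem x)).1 (hL.tan x), inner_P_left G (C.pr_mem x),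
      dP_tangent_normal (Un.ts C hv) hm, inner_zero_right, zero_add] at h5
    exact h5
  have k2 : ∀ e, ⟪fderiv ℝ Zf x e, C.Dp x e⟫ = 0 := fun e => by
    by_cases h0 : C.Dp x e = 0
    · rw [h0, inner_zero_right]
    · have h1 := norm_ne_zero_iff.2 h0
      have := k1 (‖C.Dp x e‖⁻¹ • e) (by rw [map_smul, norm_smul, norm_inv, norm_norm,
        inv_mul_cancel₀ h1])
      rw [map_smul, map_smul, real_inner_smul_left, real_inner_smul_right] at this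
      simpa [h1] using this
  have h1 := k2 (e + e')
  rw [map_add, map_add, inner_add_left, inner_add_right, inner_add_right, k2, k2] at h1
  rw [real_inner_comm (fderiv ℝ Zf x e')]
  linarith

/-- the base component of the lift -/
lemma Lin.lift (hK : C.Kill Y f Y' f') (hL : C.Lin Y f Zf c) (hp : (ξ, η) ∈ GG n) (s c' : ℝ) :
    fderiv ℝ (fun p => C.pr (C.FT p)) ((ξ, η), s) ((Y ξ, Y' η), f ξ - c') =
      Zf (C.ft ξ η s) - (c' - c) • C.W ξ (C.ft ξ η s) := by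
  have ha := h.hyp.a_pos
  have hv := C.un_W ha (bas_ne0 hp.1) (C.ft ξ η s)
  have h1 := Lin.jK C h hK hL hv
  have h2 := hL.eq _ _ hv
  rw [muK] at h2
  rw [Cov.jK] at h1
  rw [(C.ep_ft ha hp s).1, (C.ep_ft ha hp s).2] at h1 h2
  have h3 := C.fderiv_FT h (GG_sub hp) (s := s) rfl (Y ξ) (Y' η) (f ξ - c')
  have h4 := fderiv_comp ((ξ, η), s) (C.diff_pr (C.FT ((ξ, η), s)))
    ((C.contDiffAt_FT h (GG_sub hp) s).differentiableAt (by simp))
  refine (congrArg (fun L : _ →L[ℝ] Euc N => L ((Y ξ, Y' η), f ξ - c')) h4).trans (h3.trans ?_)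
  rw [qq, h1, Pv_apply, (P_eq_self G (C.pr_mem _)).1 (hL.tan _),
    show f ξ - c' - C.c1 ξ η (Y ξ) = c + ⟪Zf (C.ft ξ η s), C.W ξ (C.ft ξ η s)⟫ - c' by
      rw [← h2]; ring, real_inner_comm]
  module

/-- linearisation at a fixed pair -/
lemma Lin.lin (hK : C.Kill Y f Y' f') (hL : C.Lin Y f Zf c) (hp : (ξ, η) ∈ GG n) (h1 : Y ξ = 0)
    (h2 : Y' η = 0) (hx : x = C.ft ξ η s) (hζ : ⟪ξ, ζ⟫ = 0) (hζ' : ⟪η, ζ'⟫ = 0) {e : Euc n}
    (he : C.Dp x e = H.Ei G (C.qq ξ x) (C.KW ξ x ζ + C.KW η x ζ')) :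
    H.Ei G (C.qq ξ x) (C.KW ξ x (fderiv ℝ Y ξ ζ) + C.KW η x (fderiv ℝ Y' η ζ')) =
      Pv G (C.qq ξ x) (fderiv ℝ Zf x e) - (f ξ - c) •
        (C.KW ξ x ζ - AA G (C.qq ξ x) (H.Ei G (C.qq ξ x) (C.KW ξ x ζ + C.KW η x ζ'))) := by
  have hO := GG_sub hp
  have h0 := bas_ne0 hp.1
  have hq := C.qq_mem h h0 x
  have hU : IsU G (U G) := H.isU h.hyp
  obtain ⟨V, hV, hV0, hV1⟩ := circ hp.1 hζ
  obtain ⟨V', hV', hV0', hV1'⟩ := circ hp.2.1 hζ'
  let p : ℝ → (Euc n × Euc n) × ℝ := fun τ => ((V τ, V' τ), s + τ * C.c1 ξ η ζ)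
  have hp0 : p 0 = ((ξ, η), s) := by simp [p, hV0, hV0']
  have hp1 : HasDerivAt p ((ζ, ζ'), C.c1 ξ η ζ) 0 :=
    (hV.prodMk hV').prodMk (by simpa using ((hasDerivAt_id (0 : ℝ)).mul_const _).const_add s)
  have hne : ∀ᶠ τ in 𝓝 (0 : ℝ), V τ ≠ V' τ :=
    (hV.continuousAt.ne_iff_eventually_ne hV'.continuousAt).1 (by rw [hV0, hV0']; exact hp.2.2)
  have hFT := C.contDiffAt_FT h hO s
  have hΓ : ContDiffAt ℝ ∞ (fun p => C.pr (C.FT p)) ((ξ, η), s) :=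
    C.pr_smooth.contDiffAt.comp _ hFT
  -- the left side
  have d1 : DifferentiableAt ℝ (fderiv ℝ fun p => C.pr (C.FT p)) (p 0) :=
    hp0 ▸ (hΓ.fderiv_right (m := ∞) (by simp)).differentiableAt (by simp)
  have dY := ((hK.sY ξ hp.1).differentiableAt (by simp)).hasFDerivAt.comp_hasDerivAt_of_eq 0 hV
    hV0.symm
  have dY' := ((hK.sY' η hp.2.1).differentiableAt (by simp)).hasFDerivAt.comp_hasDerivAt_of_eq 0
    hV' hV0'.symm
  have df := ((hK.sf ξ hp.1).differentiableAt (by simp)).hasFDerivAt.comp_hasDerivAt_of_eq 0 hV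
    hV0.symm
  have l1 := (d1.hasFDerivAt.comp_hasDerivAt 0 hp1).clm_apply
    ((dY.prodMk dY').prodMk (df.sub_const (f ξ)))
  -- the right side
  have dF := (hFT.differentiableAt (by simp)).hasFDerivAt
  have e1 : fderiv ℝ C.FT ((ξ, η), s) ((ζ, ζ'), C.c1 ξ η ζ) = e := by
    refine C.fderiv_pr_inj x ((C.fderiv_FT h hO hx ζ ζ' _).trans ?_)
    rw [sub_self, zero_smul, add_zero]
    exact he.symm
  have dZ := (hL.diff x).hasFDerivAt.comp_hasDerivAt_of_eq 0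
    (dF.comp_hasDerivAt_of_eq 0 hp1 hp0.symm) (hx.trans (congrArg C.FT hp0).symm)
  have dW : DifferentiableAt ℝ (fun p => C.W p.1.1 (C.FT p)) ((ξ, η), s) :=
    ((C.contDiffAt_W h h0 (C.ft ξ η s)).comp (((ξ, η), s) : (Euc n × Euc n) × ℝ)
      (f := fun p => (p.1.1, C.FT p))
      ((contDiffAt_fst.comp _ contDiffAt_fst).prodMk hFT)).differentiableAt (by simp)
  have r1 := dZ.sub ((dW.hasFDerivAt.comp_hasDerivAt_of_eq 0 hp1 hp0.symm).const_smul (f ξ - c))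
  have k := l1.unique (r1.congr_of_eventuallyEq (hne.mono fun τ hτ =>
    Lin.lift C h hK hL ⟨(hV1 τ).1, (hV1' τ).1, hτ⟩ _ (f ξ)))
  simp only [Function.comp_apply, hV0, hV0', h1, h2, sub_self, Prod.mk_zero_zero, map_zero,
    zero_add, hp0, e1] at k
  rw [fderiv_fun_comp _ (C.diff_pr _) dF.differentiableAt,
    show C.FT ((ξ, η), s) = x from hx.symm] at k
  have k1 := congrArg (Pv G (C.qq ξ x)) ((C.fderiv_FT h hO hx _ _ _).symm.trans k)
  rw [map_add, map_smul, show Pv G (C.qq ξ x) (C.W ξ x) = 0 from H.Pv_vel hq, smul_zero, add_zero,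
    Pv_of_mem hq.1 (Ei_mem h hq (KW_mem' C h hp hx _ _)), map_sub, map_smul,
    ← Pv_P hq.1 (fderiv ℝ (fun p => C.W p.1.1 (C.FT p)) _ _)] at k1
  rw [k1, show (C.qq ξ x).1 = C.pr x from rfl, C.fderiv_WFT h hO hx, map_sub,
    Pv_of_mem hq.1 (C.KW_mem h h0 x ζ), H.Pv_Um hU hq]

theorem p7 (hK : C.Kill Y f Y' f') (hL : C.Lin Y f Zf c) (hp : (ξ, η) ∈ GG n) (h1 : Y ξ = 0)
    (h2 : Y' η = 0)
    (h3 : LinearMap.trace ℝ (Euc n) ((fderiv ℝ Y ξ ∘L piO ξ : Euc n →L[ℝ] Euc n) :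
      Euc n →ₗ[ℝ] Euc n) ≠ 0) (k : ℕ) (s t : ℝ) :
    trO G k (fl G (C.qq ξ (C.ft ξ η s), t)) = trO G k (C.qq ξ (C.ft ξ η s)) := by
  have ha := h.hyp.a_pos
  have hO := GG_sub hp
  have h0 := bas_ne0 hp.1
  have h0' := bas_ne0 hp.2.1
  have hU : IsU G (U G) := H.isU h.hyp
  set x := C.ft ξ η s with hx
  set q := C.qq ξ x with hqd
  have hq : q ∈ US G := C.qq_mem h h0 x
  have hr : rev q ∈ US G := rev_US hq
  have hW : C.W η x = -C.W ξ x := (C.ft_spec ha hO s).1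
  have hη : C.qq η x = rev q := C.qq_rev h hW
  have hgd : ∀ t, C.gd x (C.W ξ x) t = C.ft ξ η (s + t) := C.gd_ft ha hO s
  have hqt : ∀ t, C.qq ξ (C.ft ξ η (s + t)) = fl G (q, t) := fun t => by
    rw [← hgd, C.qq_gd h h0]
  have hpt : ∀ t, C.pr (C.ft ξ η (s + t)) = (fl G (q, t)).1 := fun t => congrArg Prod.fst (hqt t)
  have f1 : ∀ t ζ, H.Ei G (fl G (q, t)) (C.KW ξ (C.ft ξ η (s + t)) ζ) =
      PT G q t (Ju G q t (H.Ei G q (C.KW ξ x ζ))) := fun t ζ => by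
    rw [← hgd, C.KW_flow h h0, H.Ei_E hU ha (fl_US hq t)]
  have f2 : ∀ t ζ, H.Ei G (fl G (q, t)) (C.KW η (C.ft ξ η (s + t)) ζ) =
      PT G q t (Ju G (rev q) (-t) (H.Ei G (rev q) (C.KW η x ζ))) := fun t ζ => by
    have := C.KW_flow h h0' x ζ (-t)
    rw [hη, hW, gd_neg, fl_rev' hq.1, PT_rev hq.1, neg_neg, E_rev h, hgd] at this
    rw [this, H.Ei_E hU ha (fl_US hq t)]
  obtain ⟨l, hl1, hl2⟩ := exists_lam C h hp.1 x
  obtain ⟨l', hl1', -⟩ := exists_lam C h hp.2.1 x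
  rw [hη] at hl1'
  choose R hR using exists_R C
  let B : ℝ → Op N := fun t => PTi G q t ∘L Pv G (fl G (q, t)) ∘L
    fderiv ℝ Zf (C.ft ξ η (s + t)) ∘L R (C.ft ξ η (s + t)) ∘L Pv G (fl G (q, t)) ∘L PT G q t
  have hB : ∀ t w, B t w = PTi G q t (Pv G (fl G (q, t)) (fderiv ℝ Zf (C.ft ξ η (s + t))
      (R (C.ft ξ η (s + t)) (PT G q t (Pv G q w))))) := fun t w => by
    rw [← Pv_PT hq.1]
    rfl
  have hRP : ∀ t w, w ∈ Vp G q → C.Dp (C.ft ξ η (s + t)) (R (C.ft ξ η (s + t)) (PT G q t w)) =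
      PT G q t w := fun t w hw => hR _ _ (hpt t ▸ PT_mem hq.1 t (mem_Vp.1 hw).1)
  have hA : ∀ t w, hat G (U G) (rev q) (-t) w = PTi G q t (U G (rev (fl G (q, t))) (PT G q t w)) :=
    fun t w => by rw [hat_rev _ hq.1, neg_neg, hat_apply]
  have key := p7alg (U := hat G (U G) q) (A := fun t => hat G (U G) (rev q) (-t)) (B := B)
    (J := Jf G q) (J' := fun t => Jf G (rev q) (-t)) (c := f ξ - c)
    (D := (H.Ei G q ∘L C.KW ξ x) ∘L fderiv ℝ Y ξ ∘L l)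
    (D' := (H.Ei G (rev q) ∘L C.KW η x) ∘L fderiv ℝ Y' η ∘L l')
    (hU.ric q hq) (fun t => (hU.ric _ hr (-t)).scomp t (hasDerivAt_neg t))
    (hU.hat_symm hq) (fun t => hU.hat_symm hr (-t)) (fun t u w => ?_) (hasDerivAt_Jf h.hyp hq)
    (fun t => ((hasDerivAt_Jf h.hyp hr (-t)).scomp t (hasDerivAt_neg t)).congr_deriv
      (neg_one_smul ℝ _)) (isUnit_Jf h.hyp hq) (fun t => isUnit_Jf h.hyp hr (-t))
    (fun t => ?_) (fun t => ?_) ?_ k t
  · simp only [neg_zero, hat_zero] at key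
    rw [trO, trO, ← key, hat_rev _ hq.1, neg_neg, ← hat_sub, ← hat_pow _ hq.1, trace_hat _ hq.1]
  · have hz := (fl_US hq t).1
    have e := Lin.skew C h hL (C.ft ξ η (s + t)) (R (C.ft ξ η (s + t)) (PT G q t (Pv G q u)))
      (R (C.ft ξ η (s + t)) (PT G q t (Pv G q w)))
    rw [hRP t _ (Pv_mem hq.1 hq.2 w), hRP t _ (Pv_mem hq.1 hq.2 u)] at e
    rw [hB, hB, inner_PTi_left, inner_PTi_right, inner_Pv hz, ← inner_Pv hz (PT G q t u),
      Pv_PT hq.1, Pv_PT hq.1, e]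
  · ext1 w
    have e1 : H.Ei G (fl G (q, t)) (C.KW ξ (C.ft ξ η (s + t)) (l w)) = PT G q t (Ju G q t w) := by
      rw [f1, (hl1 w).2, Ju_Pv h.hyp hq]
    have e2 := Lin.lin C h hK hL hp h1 h2 (x := C.ft ξ η (s + t)) rfl (hl1 w).1
      (inner_zero_right η) (e := R (C.ft ξ η (s + t)) (PT G q t (Ju G q t w)))
      (by rw [hRP t _ (Ju_mem h.hyp.cpt hU hq t w), map_zero, add_zero, hqt, e1])
    have e3 := U_add_A_Ei h (fl_US hq t) (hqt t ▸ C.KW_mem h h0 (C.ft ξ η (s + t)) (l w))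
    simp only [map_zero, add_zero, hqt] at e2
    rw [← eq_sub_iff_add_eq] at e3
    rw [← e3, e1, f1] at e2
    simp only [ContinuousLinearMap.comp_apply, sub_apply, smul_apply]
    rw [Jf_mem h.hyp hq t (Ei_mem h hq (C.KW_mem h h0 x _)), hB, Pv_Jf h.hyp hq, hat_Jf h.hyp hq,
      hat_apply, ← map_smul, ← map_sub, ← e2, PTi_PT hq.1]
  · ext1 w
    have e1 : H.Ei G (fl G (q, t)) (C.KW η (C.ft ξ η (s + t)) (l' w)) =
        PT G q t (Ju G (rev q) (-t) w) := by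
      rw [f2, (hl1' w).2, Ju_Pv h.hyp hr]
    have e2 := Lin.lin C h hK hL hp h1 h2 (x := C.ft ξ η (s + t)) rfl (inner_zero_right ξ)
      (hl1' w).1 (e := R (C.ft ξ η (s + t)) (PT G q t (Ju G (rev q) (-t) w)))
      (by rw [hRP t _ (Vp_rev q ▸ Ju_mem h.hyp.cpt hU hr (-t) w), map_zero, zero_add, hqt, e1])
    simp only [map_zero, zero_add, hqt, zero_sub, smul_neg, sub_neg_eq_add] at e2
    rw [e1, f2] at e2
    simp only [ContinuousLinearMap.comp_apply, add_apply, smul_apply]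
    rw [Jf_mem h.hyp hr (-t) (Ei_mem h hr (hη ▸ C.KW_mem h h0' x _)), hB, ← Pv_rev q,
      Pv_Jf h.hyp hr, hat_Jf h.hyp hr, hA, ← map_smul, ← map_add, ← e2, PTi_PT hq.1]
  · refine fun e => h3 (Eq.trans ?_ e)
    refine Eq.trans ?_ (LinearMap.trace_comp_comm'
      ((H.Ei G q ∘L C.KW ξ x : Euc n →L[ℝ] Euc N) : Euc n →ₗ[ℝ] Euc N)
      ((fderiv ℝ Y ξ ∘L l : Euc N →L[ℝ] Euc n) : Euc N →ₗ[ℝ] Euc n))
    congr 1
    ext1 ζ
    exact congrArg (fderiv ℝ Y ξ) (hl2 ζ).symm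

end Crest.Agent.N221.Cov
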