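import Crest.Agent.N221.Bd.Ft

/-! Row 221, block Bd: contraction rates of the boundary action. -/

set_option autoImplicit false
set_option linter.unusedSectionVars false
set_option linter.unusedVariables false

open MeasureTheory Set Filter Topology
open scoped ContDiff RealInnerProductSpace ENNReal
open Crest.GeometryTopology.Submanifold
open Crest.Agent.R241.DDefs Crest.Agent.R241.D2
open Crest.Agent.R208.J Crest.Agent.R208.L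

noncomputable section

namespace Crest.Agent.N221.Cov

variable {n N : ℕ} {a : ℝ} {S : Set (Euc N)} {G : Geo n N (-(a ^ 2)) S} (C : Cov G)
variable {x y ξ η ζ ζ' : Euc n} {v : Euc N} {g : Euc n → Euc n} {s σ : ℝ}
variable {Z : Type} [NormedAddCommGroup Z] [NormedSpace ℝ Z]

variable (h : SH G)
include h

lemma E_bounds : ∃ B > 0, ∀ q ∈ US G, ∀ w,
    ‖UDn.E G q w‖ ≤ B * ‖w‖ ∧ ‖H.Ei G q w‖ ≤ B * ‖w‖ := by
  have hU := H.isU (G := G) h.hyp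
  have hc := isCompact_US G h.hyp.cpt
  obtain ⟨B1, h1⟩ := hc.exists_bound_of_continuousOn (UDn.continuousOn_E hU)
  obtain ⟨B2, h2⟩ := hc.exists_bound_of_continuousOn (H.continuousOn_Ei hU h.hyp.a_pos)
  refine ⟨|B1| + |B2| + 1, by positivity, fun q hq w => ⟨?_, ?_⟩⟩
  · exact ContinuousLinearMap.le_of_opNorm_le _
      ((h1 q hq).trans (by linarith [le_abs_self B1, abs_nonneg B2])) w
  · exact ContinuousLinearMap.le_of_opNorm_le _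
      ((h2 q hq).trans (by linarith [le_abs_self B2, abs_nonneg B1])) w

lemma KW_bounds {K : Set (Euc n × Euc n)} (hK : IsCompact K) (hK1 : ∀ p ∈ K, ‖p.1‖ = 1) :
    ∃ B > 0, ∀ p ∈ K, ∀ ζ, ⟪p.1, ζ⟫ = 0 →
      ‖C.KW p.1 p.2 ζ‖ ≤ B * ‖ζ‖ ∧ ‖ζ‖ ≤ B * ‖C.KW p.1 p.2 ζ‖ := by
  have c1 : ContinuousOn (fun p : Euc n × Euc n => C.KW p.1 p.2) K := fun p hp =>
    (C.contDiffAt_KW h (bas_ne0 (hK1 p hp)) p.2).continuousAt.continuousWithinAt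
  have c2 : ContinuousOn (fun p : Euc n × Euc n => C.KT p.1 p.2) K := fun p hp =>
    (C.contDiffAt_KT h (bas_ne0 (hK1 p hp)) p.2).continuousAt.continuousWithinAt
  obtain ⟨B, hB⟩ := hK.exists_bound_of_continuousOn c1
  have c3 : ContinuousOn (fun z : (Euc n × Euc n) × Euc n => ‖C.KT z.1.1 z.1.2 z.2‖)
      (K ×ˢ Metric.sphere 0 1) :=
    ((c2.comp continuous_fst.continuousOn fun z hz => hz.1).clm_apply
      continuous_snd.continuousOn).norm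
  obtain ⟨c, hc, hm⟩ := (hK.prod (isCompact_sphere (0 : Euc n) 1)).exists_forall_le' c3 (a := 0)
    fun z hz => norm_pos_iff.2 fun e => bas_ne0 (mem_sphere_zero_iff_norm.1 hz.2)
      (C.KT_inj h (hK1 _ hz.1) _ (e.trans (map_zero _).symm))
  refine ⟨|B| + c⁻¹, by positivity, fun p hp ζ hζ => ⟨?_, ?_⟩⟩
  · exact ContinuousLinearMap.le_of_opNorm_le _
      ((hB p hp).trans (by linarith [le_abs_self B, inv_pos.2 hc])) ζ
  · rcases eq_or_ne ζ 0 with rfl | h0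
    · simp
    have hn := norm_pos_iff.2 h0
    have h1 := hm (p, ‖ζ‖⁻¹ • ζ) ⟨hp, by
      rw [mem_sphere_zero_iff_norm, norm_smul, norm_inv, norm_norm, inv_mul_cancel₀ hn.ne']⟩
    have e : C.KT p.1 p.2 ζ = C.KW p.1 p.2 ζ := by simp [KT, hζ]
    simp only [map_smul, norm_smul, norm_inv, norm_norm, e] at h1
    rw [← div_eq_inv_mul, le_div_iff₀ hn, ← le_div_iff₀' hc, div_eq_inv_mul] at h1
    exact h1.trans (mul_le_mul_of_nonneg_right (by linarith [abs_nonneg B]) (norm_nonneg _))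

lemma KW_rate : ∃ b B : ℝ, a ≤ b ∧ 0 < B ∧ ∀ ξ, ξ ≠ 0 → ∀ y ζ t,
    (0 ≤ t → Real.exp (a * t) * ‖C.KW ξ y ζ‖ ≤ B * ‖C.KW ξ (C.gd y (C.W ξ y) t) ζ‖ ∧
      ‖C.KW ξ (C.gd y (C.W ξ y) t) ζ‖ ≤ B * Real.exp (b * t) * ‖C.KW ξ y ζ‖) ∧
    (t ≤ 0 → Real.exp (b * t) * ‖C.KW ξ y ζ‖ ≤ B * ‖C.KW ξ (C.gd y (C.W ξ y) t) ζ‖ ∧
      ‖C.KW ξ (C.gd y (C.W ξ y) t) ζ‖ ≤ B * Real.exp (a * t) * ‖C.KW ξ y ζ‖) := by
  have hU := H.isU (G := G) h.hyp
  have ha := h.hyp.a_pos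
  have hc := h.hyp.cpt
  obtain ⟨b, -, hb⟩ := hU.exists_bound hc
  have hb' : ∀ q ∈ US G, ‖U G q‖ ≤ max a b := fun q hq => (hb q hq).trans (le_max_right _ _)
  obtain ⟨B, hB, hE⟩ := E_bounds h
  refine ⟨max a b, B * B, le_max_left _ _, by positivity, fun ξ hξ y ζ t => ?_⟩
  have hq := C.qq_mem h hξ y
  have hw := Pv_of_mem hq.1 (C.KW_mem h hξ y ζ)
  rw [C.KW_flow h hξ]
  generalize C.KW ξ y ζ = w at hw
  generalize C.qq ξ y = q at hq hw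
  have hj := H.Pv_Ei hU ha hq hw
  have e1 : ‖w‖ ≤ B * ‖H.Ei G q w‖ := by
    simpa only [H.E_Ei hU ha hq] using (hE q hq (H.Ei G q w)).1
  have e2 := (hE q hq w).2
  generalize H.Ei G q w = j at hj e1 e2
  have e3 := (hE _ (fl_US hq t) (PT G q t (Ju G q t j))).1
  have e4 := (hE _ (fl_US hq t) (UDn.E G (fl G (q, t)) (PT G q t (Ju G q t j)))).2
  rw [H.Ei_E hU ha (fl_US hq t)] at e4
  rw [norm_PT hq.1] at e3 e4
  generalize ‖UDn.E G (fl G (q, t)) (PT G q t (Ju G q t j))‖ = r at e3 e4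
  have lo : ∀ c : ℝ, Real.exp c * ‖j‖ ≤ ‖Ju G q t j‖ → Real.exp c * ‖w‖ ≤ B * B * r :=
    fun c hc => by
      have := Real.exp_pos c
      calc _ ≤ Real.exp c * (B * ‖j‖) := by gcongr
        _ = B * (Real.exp c * ‖j‖) := by ring
        _ ≤ B * (B * r) := mul_le_mul_of_nonneg_left (hc.trans e4) hB.le
        _ = _ := by ring
  have up : ∀ c : ℝ, ‖Ju G q t j‖ ≤ Real.exp c * ‖j‖ → r ≤ B * B * Real.exp c * ‖w‖ :=
    fun c hc => by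
      have := Real.exp_pos c
      calc _ ≤ B * (Real.exp c * ‖j‖) := e3.trans (by gcongr)
        _ ≤ B * (Real.exp c * (B * ‖w‖)) := by gcongr
        _ = _ := by ring
  refine ⟨fun ht => ⟨lo _ ?_, up _ ?_⟩, fun ht => ⟨lo _ ?_, up _ ?_⟩⟩
  · simpa only [Ju_zero, sub_zero, hj] using Ju_lower hc hU hq j ht
  · simpa only [Ju_zero, sub_zero, hj] using Ju_upper hc hU hb' hq j ht
  · have := Ju_upper hc hU hb' hq j ht
    rwa [Ju_zero, hj, zero_sub, mul_neg, Real.exp_neg, ← div_eq_inv_mul,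
      le_div_iff₀' (Real.exp_pos _)] at this
  · have := Ju_lower hc hU hq j ht
    rwa [Ju_zero, hj, zero_sub, mul_neg, Real.exp_neg, ← div_eq_inv_mul,
      div_le_iff₀' (Real.exp_pos _)] at this

theorem rates : ∃ b : ℝ, a ≤ b ∧ ∀ K : Set (Euc n × Euc n), IsCompact K → K ⊆ GG n →
    ∃ B > 0, ∀ g, C.Deck g → ∀ ξ η, (ξ, η) ∈ K → (C.act g ξ, C.act g η) ∈ K →
      |C.be g ξ + C.be g η| ≤ B ∧ ∀ ζ, ⟪ξ, ζ⟫ = 0 →
      (0 ≤ C.be g ξ → ‖C.Da g ξ ζ‖ ≤ B * Real.exp (-(a * C.be g ξ)) * ‖ζ‖ ∧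
        Real.exp (-(b * C.be g ξ)) * ‖ζ‖ ≤ B * ‖C.Da g ξ ζ‖) ∧
      (C.be g ξ ≤ 0 → ‖C.Da g ξ ζ‖ ≤ B * Real.exp (-(b * C.be g ξ)) * ‖ζ‖ ∧
        Real.exp (-(a * C.be g ξ)) * ‖ζ‖ ≤ B * ‖C.Da g ξ ζ‖) := by
  have ha := h.hyp.a_pos
  obtain ⟨b, B1, hab, hB1, hr⟩ := C.KW_rate h
  refine ⟨b, hab, fun K hK hG => ?_⟩
  have hO : K ⊆ GO n := hG.trans GG_sub
  have c1 : ContinuousOn (fun p : Euc n × Euc n => (p.1, C.ft p.1 p.2 0)) K :=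
    continuous_fst.continuousOn.prodMk ((C.continuousOn_ft ha).comp
      (f := fun p : Euc n × Euc n => (p, (0 : ℝ))) (by fun_prop) fun _ hp => ⟨hO hp, trivial⟩)
  obtain ⟨B2, hB2, hk⟩ := C.KW_bounds h (hK.image_of_continuousOn c1)
    (by rintro _ ⟨p, hp, rfl⟩; exact (hG hp).1)
  obtain ⟨B3, h3⟩ := hK.exists_bound_of_continuousOn ((C.continuousOn_cc ha).mono hO)
  have hB : B2 * B1 * B2 ≤ B2 * B1 * B2 + 2 * |B3| := by linarith [abs_nonneg B3]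
  refine ⟨B2 * B1 * B2 + 2 * |B3|, by positivity, fun g hg ξ η hp hp' => ⟨?_, fun ζ hζ => ?_⟩⟩
  · have e := C.cc_act ha hg (hO hp)
    have e1 := abs_le.1 (h3 _ hp)
    have e2 := abs_le.1 (h3 _ hp')
    have : 0 < B2 * B1 * B2 := by positivity
    rw [abs_le]
    constructor <;> linarith [le_abs_self B3, e1.1, e1.2, e2.1, e2.2]
  have hξ := (hO hp).1
  obtain ⟨k1, k2⟩ := hk _ ⟨_, hp, rfl⟩ ζ hζ
  obtain ⟨k3, k4⟩ := hk _ ⟨_, hp', rfl⟩ _ (C.inner_Da h hg hξ ζ)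
  have r := hr _ (hO hp').1 (C.ft (C.act g ξ) (C.act g η) 0) (C.Da g ξ ζ) (C.be g ξ)
  rw [C.gd_ft ha (hO hp'), C.ft_act ha hg (hO hp), C.KW_act h hg hξ] at r
  dsimp only at k1 k2 k3 k4
  generalize ‖C.KW ξ (C.ft ξ η 0) ζ‖ = v at k1 k2 r
  have u0 := norm_nonneg (C.KW (C.act g ξ) (C.ft (C.act g ξ) (C.act g η) 0) (C.Da g ξ ζ))
  generalize ‖C.KW (C.act g ξ) (C.ft (C.act g ξ) (C.act g η) 0) (C.Da g ξ ζ)‖ = u at k3 k4 r u0
  have up : ∀ c : ℝ, Real.exp c * u ≤ B1 * v →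
      ‖C.Da g ξ ζ‖ ≤ (B2 * B1 * B2 + 2 * |B3|) * Real.exp (-c) * ‖ζ‖ := fun c hc => by
    have := Real.exp_pos (-c)
    rw [← le_div_iff₀' (Real.exp_pos _), div_eq_inv_mul, ← Real.exp_neg] at hc
    calc _ ≤ B2 * (Real.exp (-c) * (B1 * (B2 * ‖ζ‖))) :=
          k4.trans (by gcongr; exact hc.trans (by gcongr))
      _ = B2 * B1 * B2 * Real.exp (-c) * ‖ζ‖ := by ring
      _ ≤ _ := by gcongr
  have lo : ∀ c : ℝ, v ≤ B1 * Real.exp c * u →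
      Real.exp (-c) * ‖ζ‖ ≤ (B2 * B1 * B2 + 2 * |B3|) * ‖C.Da g ξ ζ‖ := fun c hc => by
    have := Real.exp_pos (-c)
    have := Real.exp_pos c
    calc _ ≤ Real.exp (-c) * (B2 * (B1 * Real.exp c * (B2 * ‖C.Da g ξ ζ‖))) := by
          gcongr; exact k2.trans (by gcongr; exact hc.trans (by gcongr))
      _ = B2 * B1 * B2 * ‖C.Da g ξ ζ‖ * (Real.exp (-c) * Real.exp c) := by ring
      _ = B2 * B1 * B2 * ‖C.Da g ξ ζ‖ := by rw [← Real.exp_add, neg_add_cancel, Real.exp_zero, mul_one]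
      _ ≤ _ := by gcongr
  exact ⟨fun ht => ⟨up _ (r.1 ht).1, lo _ (r.1 ht).2⟩, fun ht => ⟨up _ (r.2 ht).1, lo _ (r.2 ht).2⟩⟩

end Crest.Agent.N221.Cov
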