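import Crest.Agent.N221.Bd.Defs

/-! Row 221, block Bd: joint smoothness of `W`, `b`, `ep`, `act`, `be`. -/

set_option autoImplicit false
set_option linter.unusedSectionVars false
set_option linter.unusedVariables false

open MeasureTheory Set Filter Topology
open scoped ContDiff RealInnerProductSpace ENNReal
open Crest.GeometryTopology.Submanifold
open Crest.Agent.R241.DDefs Crest.Agent.R241.D2
open Crest.Agent.R208.J Crest.Agent.R208.L

noncomputable section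

namespace Crest.Agent.N221.Cov

variable {n N : ℕ} {a : ℝ} {S : Set (Euc N)} {G : Geo n N (-(a ^ 2)) S} (C : Cov G)
variable {x y ξ η ζ ζ' : Euc n} {v : Euc N} {g : Euc n → Euc n} {s σ : ℝ}
variable {Z : Type} [NormedAddCommGroup Z] [NormedSpace ℝ Z]

/-- a continuous solution of a nondegenerate implicit equation is smooth -/
lemma ift {P E F : Type} [NormedAddCommGroup P] [NormedSpace ℝ P] [CompleteSpace P]
    [NormedAddCommGroup E] [NormedSpace ℝ E] [CompleteSpace E]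
    [NormedAddCommGroup F] [NormedSpace ℝ F] [CompleteSpace F] {Φ : P × E → F} {u : P → E} {p : P}
    (hΦ : ContDiffAt ℝ ∞ Φ (p, u p))
    (hi : (fderiv ℝ Φ (p, u p) ∘L ContinuousLinearMap.inr ℝ P E).IsInvertible)
    (hu : ContinuousAt u p) (h0 : ∀ᶠ p' in 𝓝 p, Φ (p', u p') = Φ (p, u p)) :
    ContDiffAt ℝ ∞ u p := by
  refine (hΦ.contDiffAt_implicitFunction (by simp) hi).congr_of_eventuallyEq ?_
  filter_upwards [(continuousAt_id.prodMk hu).tendsto.eventually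
    (hΦ.eventually_apply_eq_iff_implicitFunction (by simp) hi), h0] with p' h1 h2
  exact (h1.1 h2).symm

lemma contDiffAt_dir0 (hξ : ξ ≠ 0) : ContDiffAt ℝ ∞ (C.dir 0) ξ :=
  (C.contDiffAt_dir hξ.symm).comp ξ (f := fun ξ => ((0 : Euc n), ξ)) (by fun_prop)

section Aux

variable {A B E : Type} [NormedAddCommGroup A] [NormedSpace ℝ A] [NormedAddCommGroup B]
  [NormedSpace ℝ B] [NormedAddCommGroup E] [NormedSpace ℝ E] {F : A → B → E} {p : A} {q : B}

omit C in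
lemma sm_part (hF : ContDiffAt ℝ ∞ (fun z : A × B => F z.1 z.2) (p, q)) :
    ContDiffAt ℝ ∞ (fun z : A × B => fderiv ℝ (fun p => F p z.2) z.1) (p, q) :=
  ContDiffAt.fderiv (f := fun (z : A × B) p => F p z.2) (g := Prod.fst) (n := ∞)
    (hF.comp ((p, q), p) (f := fun w : (A × B) × A => (w.2, w.1.2)) (by fun_prop))
    contDiffAt_fst (by simp)

omit C in
lemma sm_total (hF : DifferentiableAt ℝ (fun z : A × B => F z.1 z.2) (p, q)) :
    HasFDerivAt (fun z : A × B => F z.1 z.2)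
      (fderiv ℝ (fun p => F p q) p ∘L ContinuousLinearMap.fst ℝ _ _ +
        fderiv ℝ (F p) q ∘L ContinuousLinearMap.snd ℝ _ _) (p, q) := by
  have h1 := (hF.hasFDerivAt.comp p (f := fun p => (p, q)) (hasFDerivAt_prodMk_left p q)).fderiv
  have h2 := (hF.hasFDerivAt.comp q (hasFDerivAt_prodMk_right p q)).fderiv
  refine hF.hasFDerivAt.congr_fderiv ?_
  rw [show fderiv ℝ (fun p => F p q) p = _ from h1, show fderiv ℝ (F p) q = _ from h2]
  ext <;> simp [Prod.mk_zero_zero]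

end Aux

variable (h : SH G)
include h

lemma qq_mem (hξ : ξ ≠ 0) (y : Euc n) : C.qq ξ y ∈ US G := C.un_W h.hyp.a_pos hξ y

/-- `asy` and `bus` have smooth extensions -/
lemma exists_As : ∃ (As : Euc n × Euc N × Euc n → Euc N) (Bs : Euc n × Euc N × Euc n → ℝ),
    ∀ x v y, C.Un x v → ContDiffAt ℝ ∞ As (x, v, y) ∧ ContDiffAt ℝ ∞ Bs (x, v, y) ∧
      As (x, v, y) = C.asy x v y ∧ Bs (x, v, y) = C.bus x v y := by
  obtain ⟨V, hV, eV⟩ := h.sm
  have ha := h.hyp.a_pos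
  have d1 : ContDiff ℝ ∞ C.Dp := C.pr_smooth.fderiv_right (by simp)
  have d2 := contDiff_dP G
  have d3 := C.pr_smooth
  let F : Euc n × Euc n × Euc N × ℝ → Euc n × Euc n × Euc N × ℝ := fun z =>
    (z.2.1, 0, dP G (C.pr z.1, z.2.2.1) (C.Dp z.1 z.2.1) - V (C.pr z.1, -z.2.2.1) (C.Dp z.1 z.2.1),
      -⟪z.2.2.1, C.Dp z.1 z.2.1⟫)
  have hF : ContDiff ℝ ∞ F := by
    have e1 : ContDiff ℝ ∞ fun z : Euc n × Euc n × Euc N × ℝ => C.Dp z.1 z.2.1 := by fun_prop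
    exact contDiff_snd.fst.prodMk (contDiff_const.prodMk (ContDiff.prodMk (by fun_prop)
      (ContDiff.inner ℝ (by fun_prop) e1).neg))
  have hF1 : ContDiffOn ℝ 1 F univ := (hF.of_le (by simp)).contDiffOn
  let Φ : Euc n × Euc N × Euc n → Euc n × Euc n × Euc N × ℝ := fun z =>
    Lib.ODEFlow.flow F univ ((z.1, z.2.2 - z.1, z.2.1, 0), 1)
  refine ⟨fun z => (Φ z).2.2.1, fun z => (Φ z).2.2.2, fun x v y hv => ?_⟩
  have hξ := C.ep_ne_zero ha hv
  obtain ⟨k1, k2⟩ := Lib.ODEFlow.flow_of_integralCurve' isOpen_univ hF1 (l := 1)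
    (x := (x, y - x, v, 0)) (c := fun t => (x + t • (y - x), y - x,
      C.W (C.ep x v) (x + t • (y - x)), C.b (C.ep x v) (x + t • (y - x)) - C.b (C.ep x v) x))
    (by simp [C.W_ep_self ha hv]) (fun _ _ => trivial) fun t _ => by
      have hl : HasDerivAt (fun s : ℝ => x + s • (y - x)) (y - x) t := by
        simpa using ((hasDerivAt_id t).smul_const (y - x)).const_add x
      have a1 := ((C.contDiff_W h.hyp h.hH hξ).differentiable (by simp)
        (x + t • (y - x))).hasFDerivAt.comp_hasDerivAt t hl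
      rw [C.fderiv_W' h.hyp h.hH h.hD hξ, ← eV (rev_US (C.un_W ha hξ _))] at a1
      exact hl.prodMk ((hasDerivAt_const t _).prodMk (a1.prodMk
        (((C.hasFDerivAt_b ha hξ _).comp_hasDerivAt t hl).sub_const _)))
  have k3 : ContDiffAt ℝ ∞ Φ (x, v, y) :=
    ContDiffAt.comp (x, v, y) (g := Lib.ODEFlow.flow F univ)
      (f := fun z : Euc n × Euc N × Euc n => ((z.1, z.2.2 - z.1, z.2.1, (0 : ℝ)), (1 : ℝ)))
      ((Lib.ODEFlow.contDiffOn_flow (n := ⊤) le_top isOpen_univ hF.contDiffOn).contDiffAt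
        ((Lib.ODEFlow.isOpen_dom isOpen_univ hF1).mem_nhds k1)) (by fun_prop)
  have k4 : C.bus x v x = 0 := by simpa only [C.gd_zero, neg_zero] using C.bus_gd ha hv 0
  refine ⟨k3.snd.snd.fst, k3.snd.snd.snd, ?_, ?_⟩ <;> simp only [Φ, k2, one_smul, add_sub_cancel]
  · exact C.W_ep ha hv y
  · rw [C.b_ep ha hv, C.b_ep ha hv, k4]; ring

lemma contDiffAt_W (hξ : ξ ≠ 0) (y : Euc n) :
    ContDiffAt ℝ ∞ (fun p : Euc n × Euc n => C.W p.1 p.2) (ξ, y) := by
  obtain ⟨As, Bs, H⟩ := C.exists_As h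
  refine ((H 0 _ y (C.un_dir0 hξ)).1.comp (ξ, y)
    (f := fun p : Euc n × Euc n => ((0 : Euc n), C.dir 0 p.1, p.2)) (contDiffAt_const.prodMk
      (((C.contDiffAt_dir0 hξ).comp (ξ, y) contDiffAt_fst).prodMk
        contDiffAt_snd))).congr_of_eventuallyEq ?_
  filter_upwards [(continuousAt_fst (p := (ξ, y))).eventually_ne hξ] with p hp
  exact (H 0 _ p.2 (C.un_dir0 hp)).2.2.1.symm

lemma contDiffAt_b (hξ : ξ ≠ 0) (y : Euc n) :
    ContDiffAt ℝ ∞ (fun p : Euc n × Euc n => C.b p.1 p.2) (ξ, y) := by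
  obtain ⟨As, Bs, H⟩ := C.exists_As h
  refine ((H 0 _ y (C.un_dir0 hξ)).2.1.comp (ξ, y)
    (f := fun p : Euc n × Euc n => ((0 : Euc n), C.dir 0 p.1, p.2)) (contDiffAt_const.prodMk
      (((C.contDiffAt_dir0 hξ).comp (ξ, y) contDiffAt_fst).prodMk
        contDiffAt_snd))).congr_of_eventuallyEq ?_
  filter_upwards [(continuousAt_fst (p := (ξ, y))).eventually_ne hξ] with p hp
  exact (H 0 _ p.2 (C.un_dir0 hp)).2.2.2.symm

lemma exists_Ep : ∃ Ep : Euc n × Euc N → Euc n, ∀ x v, C.Un x v →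
    ContDiffAt ℝ ∞ Ep (x, v) ∧ Ep (x, v) = C.ep x v := by
  obtain ⟨As, Bs, H⟩ := C.exists_As h
  refine ⟨fun z => C.ex 0 (As (z.1, z.2, 0)), fun x v hv => ⟨?_, by rw [ep, ← (H x v 0 hv).2.2.1]⟩⟩
  exact C.ex_smooth.contDiffAt.comp (x, v) (f := fun z : Euc n × Euc N => (0, As (z.1, z.2, 0)))
    (contDiffAt_const.prodMk ((H x v 0 hv).1.comp (x, v)
      (f := fun z : Euc n × Euc N => (z.1, z.2, (0 : Euc n))) (by fun_prop)))

lemma contDiffAt_ep {X : Z → Euc n} {V : Z → Euc N} {z : Z} (hX : ContDiffAt ℝ ∞ X z)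
    (hV : ContDiffAt ℝ ∞ V z) (hu : ∀ᶠ z' in 𝓝 z, C.Un (X z') (V z')) :
    ContDiffAt ℝ ∞ (fun z => C.ep (X z) (V z)) z := by
  obtain ⟨Ep, H⟩ := C.exists_Ep h
  exact ((H _ _ hu.self_of_nhds).1.comp z (hX.prodMk hV)).congr_of_eventuallyEq
    (hu.mono fun z' hz => (H _ _ hz).2.symm)

lemma differentiableAt_ep {X : Z → Euc n} {V : Z → Euc N} {z : Z} (hX : DifferentiableAt ℝ X z)
    (hV : DifferentiableAt ℝ V z) (hu : ∀ᶠ z' in 𝓝 z, C.Un (X z') (V z')) :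
    DifferentiableAt ℝ (fun z => C.ep (X z) (V z)) z := by
  obtain ⟨Ep, H⟩ := C.exists_Ep h
  exact (((H _ _ hu.self_of_nhds).1.differentiableAt (by simp)).comp z
    (hX.prodMk hV)).congr_of_eventuallyEq (hu.mono fun z' hz => (H _ _ hz).2.symm)

lemma contDiffAt_Psi {X : Z → Euc n} {V : Z → Euc N} {z : Z} (hX : ContDiffAt ℝ ∞ X z)
    (hV : ContDiffAt ℝ ∞ V z) (hu : ∀ᶠ z' in 𝓝 z, C.Un (X z') (V z')) :
    ContDiffAt ℝ ∞ (fun z => C.PsiB (X z) (V z)) z := by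
  have h1 := C.contDiffAt_ep h hX hV hu
  exact (h1.prodMk (C.contDiffAt_ep h hX hV.neg (hu.mono fun _ hz => hz.neg C))).prodMk
    ((C.contDiffAt_b h (C.ep_ne_zero h.hyp.a_pos hu.self_of_nhds) _).comp z (h1.prodMk hX)).neg

lemma differentiableAt_Psi {X : Z → Euc n} {V : Z → Euc N} {z : Z} (hX : DifferentiableAt ℝ X z)
    (hV : DifferentiableAt ℝ V z) (hu : ∀ᶠ z' in 𝓝 z, C.Un (X z') (V z')) :
    DifferentiableAt ℝ (fun z => C.PsiB (X z) (V z)) z := by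
  have h1 := C.differentiableAt_ep h hX hV hu
  exact (h1.prodMk (C.differentiableAt_ep h hX hV.neg (hu.mono fun _ hz => hz.neg C))).prodMk
    (((C.contDiffAt_b h (C.ep_ne_zero h.hyp.a_pos hu.self_of_nhds) _).differentiableAt
      (by simp)).comp z (h1.prodMk hX)).neg

lemma contDiffAt_act (hg : C.Deck g) (hξ : ξ ≠ 0) : ContDiffAt ℝ ∞ (C.act g) ξ :=
  C.contDiffAt_ep h contDiffAt_const (C.contDiffAt_dir0 hξ)
    ((eventually_ne_nhds hξ).mono fun _ hz => (Deck.un C hg).2 (C.un_dir0 hz))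

lemma contDiffAt_be (hg : C.Deck g) (hξ : ξ ≠ 0) : ContDiffAt ℝ ∞ (C.be g) ξ :=
  ((C.contDiffAt_b h (C.act_ne_zero h.hyp.a_pos hg hξ) (g 0)).comp ξ
    ((C.contDiffAt_act h hg hξ).prodMk contDiffAt_const)).neg

lemma contDiffAt_KW (hξ : ξ ≠ 0) (y : Euc n) :
    ContDiffAt ℝ ∞ (fun p : Euc n × Euc n => C.KW p.1 p.2) (ξ, y) := sm_part (C.contDiffAt_W h hξ y)

lemma contDiffAt_KT (hξ : ξ ≠ 0) (y : Euc n) :
    ContDiffAt ℝ ∞ (fun p : Euc n × Euc n => C.KT p.1 p.2) (ξ, y) :=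
  (C.contDiffAt_KW h hξ y).add (((innerSL ℝ).contDiff.contDiffAt.comp (ξ, y)
    contDiffAt_fst).smulRight (C.contDiffAt_W h hξ y))

lemma contDiffAt_b1 (hξ : ξ ≠ 0) (y : Euc n) :
    ContDiffAt ℝ ∞ (fun p : Euc n × Euc n => C.b1 p.1 p.2) (ξ, y) := sm_part (C.contDiffAt_b h hξ y)

lemma hasFDerivAt_W (hξ : ξ ≠ 0) (y : Euc n) :
    HasFDerivAt (fun p : Euc n × Euc n => C.W p.1 p.2)
      (C.KW ξ y ∘L ContinuousLinearMap.fst ℝ _ _ +
        (dP G (C.qq ξ y) - AA G (C.qq ξ y)) ∘L C.Dp y ∘L ContinuousLinearMap.snd ℝ _ _) (ξ, y) := by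
  refine (sm_total ((C.contDiffAt_W h hξ y).differentiableAt (by simp))).congr_fderiv ?_
  congr 1
  exact ContinuousLinearMap.ext fun p => C.fderiv_W' h.hyp h.hH h.hD hξ y p.2

lemma hasFDerivAt_b2 (hξ : ξ ≠ 0) (y : Euc n) :
    HasFDerivAt (fun p : Euc n × Euc n => C.b p.1 p.2)
      (C.b1 ξ y ∘L ContinuousLinearMap.fst ℝ _ _ -
        innerSL ℝ (C.W ξ y) ∘L C.Dp y ∘L ContinuousLinearMap.snd ℝ _ _) (ξ, y) := by
  refine (sm_total ((C.contDiffAt_b h hξ y).differentiableAt (by simp))).congr_fderiv ?_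
  rw [(C.hasFDerivAt_b h.hyp.a_pos hξ y).fderiv, sub_eq_add_neg]
  rfl

/-- symmetry of the mixed second derivative of `b` -/
lemma hasFDerivAt_b1 (hξ : ξ ≠ 0) (y ζ : Euc n) :
    HasFDerivAt (fun y => C.b1 ξ y ζ) (-(innerSL ℝ (C.KW ξ y ζ) ∘L C.Dp y)) y := by
  have h0 := C.contDiffAt_b h hξ y
  have h1 := ((h0.fderiv_right (m := ∞) (by simp)).differentiableAt (by simp)).hasFDerivAt
  have h2 := (h0.isSymmSndFDerivAt (by
    rw [minSmoothness_of_isRCLikeNormedField]; exact WithTop.coe_le_coe.2 le_top)).eq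
  generalize fderiv ℝ (fderiv ℝ fun p : Euc n × Euc n => C.b p.1 p.2) (ξ, y) = L at h1 h2
  have h3 := (h1.comp y (hasFDerivAt_prodMk_right ξ y)).clm_apply (hasFDerivAt_const (ζ, (0 : Euc n)) y)
  refine (h3.congr_of_eventuallyEq (.of_forall fun y' => ?_)).congr_fderiv ?_
  · simp [(C.hasFDerivAt_b2 h hξ y').fderiv]
  ext1 e
  have h4 := (h1.comp ξ (f := fun ξ => (ξ, y)) (hasFDerivAt_prodMk_left ξ y)).clm_apply
    (hasFDerivAt_const ((0 : Euc n), e) ξ)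
  have h5 : HasFDerivAt (fun ξ => C.W ξ y) (C.KW ξ y) ξ :=
    (((C.contDiffAt_W h hξ y).differentiableAt (by simp)).comp ξ (f := fun ξ => (ξ, y))
      (by fun_prop)).hasFDerivAt
  have h6 := h4.unique (((innerSL ℝ (C.Dp y e)).hasFDerivAt.comp ξ h5).neg.congr_of_eventuallyEq
    ((eventually_ne_nhds hξ).mono fun ξ' h' => by
      simp [(C.hasFDerivAt_b2 h h' y).fderiv, real_inner_comm]))
  have h7 := congrArg (· ζ) h6
  simpa [h2 (0, e), real_inner_comm] using h7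

end Crest.Agent.N221.Cov
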